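import Vale.Agent.P167.H411.Inputs6
import Vale.Agent.P167.QE.Main

/-!
# P167, general `q`: averages over the histories of the exploration
-/

open Filter Topology Set MeasureTheory

namespace Vale.Agent.P167.H437Q.Ret

open Vale.Agent.P167.E6 (Approx edges)
open Vale.Agent.P167.H411 (exn Qc)
open Vale.Agent.P167.QE (ExW wq)

theorem exn_C (δ : ℕ → ℝ) (N k : ℕ → ℕ) (p : ∀ n, ZMod (N n) → ℤ × ℤ) (S : ℕ → Finset (ℤ × ℤ))
    (ψn : ℕ → ℂ → ℂ) (n : ℕ) : (exn δ N k p S ψn n).C = {A | A ⊆ edges (S n)} := by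
  ext A
  show A ∈ (Qc (p n) (k n) (δ n) (S n)).C ↔ _
  rw [H411.mem_Qc]
  rfl

/-- Averages over the histories are averages of the random-cluster measure. -/
theorem exW_mean (q : ℝ) (δ : ℕ → ℝ) (N k : ℕ → ℕ) (p : ∀ n, ZMod (N n) → ℤ × ℤ)
    (S : ℕ → Finset (ℤ × ℤ)) (ψn : ℕ → ℂ → ℂ) (n : ℕ) (F : Finset (Sym2 (ℤ × ℤ)) → ℝ) :
    ExW (exn δ N k p S ψn n).C (wq q (N n) (p n) (k n) (S n)) F =
      Final.mean q (p n) (k n) (S n) F := by
  have h : (exn δ N k p S ψn n).C = ((edges (S n)).powerset : Set (Finset (Sym2 (ℤ × ℤ)))) := by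
    rw [exn_C]
    ext A
    simp
  unfold ExW Final.mean
  rw [h, finsum_mem_coe_finset, finsum_mem_coe_finset]
  rfl

end Vale.Agent.P167.H437Q.Ret
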