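import Vale.Agent.P153.R2.C1.Defs
import Mathlib.Topology.MetricSpace.ThickenedIndicator
import Mathlib.MeasureTheory.Integral.DominatedConvergence

/-!
# P167, general `q`, route (C), block (C3): the portmanteau inequalities (abstract part)

Curves are `C(unitInterval, ℂ)`. `Tst F`: bounded continuous functions which are invariant under
reparametrisation; `Lm M P Y`: the functionals `M n` converge on these test functions to the law of the
random curve `Y`. If `M' n 1_U ≤ M n 1_V` for functionals `M'` whose limit is the law of a curve `ε`-close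
to `G`, for every `ε`, then `P (G ∈ U) ≤ P' (Y ∈ V)` (`port_below`), and vice versa (`port_above`).
-/

open MeasureTheory Set Filter Topology Metric
open scoped ENNReal NNReal

namespace Vale.Agent.P167.H437Q.C3

open Vale.Agent.P153.R2.C1 (reparam)

/-- Curves. -/
abbrev Crv : Type := C(unitInterval, ℂ)

/-- Invariance under reparametrisation. -/
def Inv (U : Set Crv) : Prop :=
  ∀ (x : Crv) (φ : unitInterval ≃o unitInterval), reparam x φ ∈ U ↔ x ∈ U

/-- Test functions. -/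
structure Tst (F : Crv → ℝ) : Prop where
  cont : Continuous F
  bdd : ∃ M, ∀ x, |F x| ≤ M
  inv : ∀ (x : Crv) (φ : unitInterval ≃o unitInterval), F (reparam x φ) = F x

/-- The functionals `M n` converge on the test functions to the law of `Y`. -/
def Lm {Ω : Type*} [MeasurableSpace Ω] (M : ℕ → (Crv → ℝ) → ℝ) (P : Measure Ω) (Y : Ω → Crv) : Prop :=
  ∀ F, Tst F → Tendsto (fun n => M n F) atTop (𝓝 (∫ ω, F (Y ω) ∂P))

theorem Inv.compl {U : Set Crv} (h : Inv U) : Inv Uᶜ := fun x φ => not_congr (h x φ)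

theorem Inv.iInter {ι : Type*} {U : ι → Set Crv} (h : ∀ i, Inv (U i)) : Inv (⋂ i, U i) := fun x φ => by
  simp only [mem_iInter]
  exact forall_congr' fun i => h i x φ

theorem isometry_reparam (φ : unitInterval ≃o unitInterval) : Isometry fun x : Crv => reparam x φ := by
  refine Isometry.of_dist_eq fun x y => ?_
  apply le_antisymm
  · rw [ContinuousMap.dist_le dist_nonneg]
    exact fun t => ContinuousMap.dist_apply_le_dist (f := x) (g := y) (φ t)
  · rw [ContinuousMap.dist_le dist_nonneg]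
    intro t
    have h := ContinuousMap.dist_apply_le_dist (f := reparam x φ) (g := reparam y φ) (φ.symm t)
    simpa [reparam] using h

theorem image_reparam {V : Set Crv} (hV : Inv V) (φ : unitInterval ≃o unitInterval) :
    (fun x : Crv => reparam x φ) '' V = V := by
  ext x
  constructor
  · rintro ⟨y, hy, rfl⟩
    exact (hV y φ).2 hy
  · intro hx
    refine ⟨reparam x φ.symm, (hV x φ.symm).2 hx, ?_⟩
    ext t
    simp [reparam]

theorem infEDist_reparam {V : Set Crv} (hV : Inv V) (x : Crv) (φ : unitInterval ≃o unitInterval) :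
    infEDist (reparam x φ) V = infEDist x V := by
  have h := infEDist_image (x := x) (t := V) (isometry_reparam φ)
  rw [image_reparam hV φ] at h
  exact h

/-- The thickened indicator. -/
noncomputable def ti (r : ℝ) (V : Set Crv) (x : Crv) : ℝ := (thickenedIndicatorAux r V x).toReal

theorem ti_nonneg (r : ℝ) (V : Set Crv) (x : Crv) : 0 ≤ ti r V x := ENNReal.toReal_nonneg

theorem ti_le (r : ℝ) (V : Set Crv) (x : Crv) : ti r V x ≤ 1 := by
  unfold ti
  exact ENNReal.toReal_le_of_le_ofReal zero_le_one (by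
    rw [ENNReal.ofReal_one]; exact thickenedIndicatorAux_le_one _ _ _)

theorem ti_one (r : ℝ) {V : Set Crv} {x : Crv} (hx : x ∈ V) : ti r V x = 1 := by
  unfold ti
  rw [thickenedIndicatorAux_one r V hx, ENNReal.toReal_one]

theorem ti_cont {r : ℝ} (hr : 0 < r) (V : Set Crv) : Continuous (ti r V) := by
  refine ENNReal.continuousOn_toReal.comp_continuous (continuous_thickenedIndicatorAux hr V) fun x => ?_
  exact thickenedIndicatorAux_lt_top.ne

theorem ti_inv (r : ℝ) {V : Set Crv} (hV : Inv V) (x : Crv) (φ : unitInterval ≃o unitInterval) :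
    ti r V (reparam x φ) = ti r V x := by
  unfold ti thickenedIndicatorAux
  rw [infEDist_reparam hV]

theorem tst_ti {r : ℝ} (hr : 0 < r) {V : Set Crv} (hV : Inv V) : Tst (ti r V) :=
  ⟨ti_cont hr V, ⟨1, fun x => by rw [abs_of_nonneg (ti_nonneg r V x)]; exact ti_le r V x⟩, ti_inv r hV⟩

theorem Tst.one_sub {F : Crv → ℝ} (hF : Tst F) : Tst fun x => 1 - F x := by
  obtain ⟨M, hM⟩ := hF.bdd
  refine ⟨continuous_const.sub hF.cont, ⟨1 + M, fun x => ?_⟩, fun x φ => by rw [hF.inv]⟩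
  calc |1 - F x| ≤ |(1 : ℝ)| + |F x| := abs_sub _ _
    _ ≤ 1 + M := by rw [abs_one]; linarith [hM x]

/-- The radii `1 / (j + 1)`. -/
theorem rad_pos (j : ℕ) : (0 : ℝ) < 1 / ((j : ℝ) + 1) := by positivity

theorem ti_tendsto {V : Set Crv} (hV : IsClosed V) (x : Crv) :
    Tendsto (fun j : ℕ => ti (1 / ((j : ℝ) + 1)) V x) atTop (𝓝 (V.indicator 1 x)) := by
  have h := thickenedIndicatorAux_tendsto_indicator_closure (E := V)
    (δseq := fun j : ℕ => 1 / ((j : ℝ) + 1)) tendsto_one_div_add_atTop_nhds_zero_nat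
  rw [tendsto_pi_nhds] at h
  have h2 := h x
  rw [hV.closure_eq] at h2
  have h3 : (V.indicator (fun _ => (1 : ℝ≥0∞)) x) ≠ ∞ := by
    by_cases hx : x ∈ V
    · rw [indicator_of_mem hx]; exact ENNReal.one_ne_top
    · rw [indicator_of_notMem hx]; exact ENNReal.zero_ne_top
  have h4 := (ENNReal.tendsto_toReal h3).comp h2
  have h5 : (V.indicator (fun _ => (1 : ℝ≥0∞)) x).toReal = V.indicator 1 x := by
    by_cases hx : x ∈ V
    · rw [indicator_of_mem hx, indicator_of_mem hx]; simp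
    · rw [indicator_of_notMem hx, indicator_of_notMem hx]; simp
  rw [h5] at h4
  exact h4

section

variable {Ω Ω' : Type*} [MeasurableSpace Ω] [MeasurableSpace Ω'] {P : Measure Ω} {P' : Measure Ω'}
  {X : Ω → Crv} {Y : Ω' → Crv}

/-- The random curve is measurable on the test functions. -/
def Mb (P : Measure Ω) (X : Ω → Crv) : Prop :=
  ∀ F : Crv → ℝ, Tst F → AEMeasurable (fun ω => F (X ω)) P

theorem nm_closed (hX : Mb P X) {V : Set Crv} (hV : IsClosed V) (hVi : Inv V) :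
    NullMeasurableSet {ω | X ω ∈ V} P := by
  have h := hX _ (tst_ti one_pos hVi)
  have e : {ω | X ω ∈ V} = {ω | 1 ≤ ti 1 V (X ω)} := by
    ext ω
    simp only [mem_ofPred_eq]
    constructor
    · intro h; rw [ti_one 1 h]
    · intro h
      by_contra hcon
      have h1 : 0 < infEDist (X ω) V := by
        rw [pos_iff_ne_zero]
        intro h2
        exact hcon (by rw [← hV.closure_eq]; exact mem_closure_iff_infEDist_zero.2 h2)
      have h2 : thickenedIndicatorAux 1 V (X ω) < 1 := by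
        unfold thickenedIndicatorAux
        rw [ENNReal.ofReal_one, div_one]
        exact ENNReal.sub_lt_self ENNReal.one_ne_top one_ne_zero h1.ne'
      have h3 : ti 1 V (X ω) < 1 := by
        unfold ti
        have := (ENNReal.toReal_lt_toReal thickenedIndicatorAux_lt_top.ne ENNReal.one_ne_top).2 h2
        rwa [ENNReal.toReal_one] at this
      linarith
  rw [e]
  exact h.nullMeasurable measurableSet_Ici

theorem lim_closed [IsProbabilityMeasure P] (hX : Mb P X) {V : Set Crv} (hV : IsClosed V) (hVi : Inv V) :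
    Tendsto (fun j : ℕ => ∫ ω, ti (1 / ((j : ℝ) + 1)) V (X ω) ∂P) atTop (𝓝 (P.real {ω | X ω ∈ V})) := by
  have e : P.real {ω | X ω ∈ V} = ∫ ω, V.indicator 1 (X ω) ∂P := by
    have h1 : (fun ω => V.indicator (1 : Crv → ℝ) (X ω)) =
        {ω | X ω ∈ V}.indicator fun _ => (1 : ℝ) := by
      funext ω
      by_cases h : X ω ∈ V
      · rw [indicator_of_mem h, indicator_of_mem (show ω ∈ {ω | X ω ∈ V} from h)]; rfl
      · rw [indicator_of_notMem h, indicator_of_notMem (show ω ∉ {ω | X ω ∈ V} from h)]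
    rw [h1, integral_indicator₀ (nm_closed hX hV hVi)]
    simp
  rw [e]
  refine tendsto_integral_of_dominated_convergence (fun _ => (1 : ℝ))
    (fun j => (hX _ (tst_ti (rad_pos j) hVi)).aestronglyMeasurable) (integrable_const _)
    (fun j => Eventually.of_forall fun ω => ?_) (Eventually.of_forall fun ω => ti_tendsto hV (X ω))
  rw [Real.norm_eq_abs, abs_of_nonneg (ti_nonneg _ _ _)]
  exact ti_le _ _ _

/-- Comparison of the laws of two curves from the comparison of test functions. -/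
theorem cmp_of_tst [IsProbabilityMeasure P] [IsProbabilityMeasure P'] (hX : Mb P X) (hY : Mb P' Y)
    {U V : Set Crv} (hU : IsOpen U) (hUi : Inv U) (hV : IsClosed V) (hVi : Inv V)
    (h : ∀ F H : Crv → ℝ, Tst F → Tst H → (∀ x, F x ≤ U.indicator 1 x) → (∀ x, V.indicator 1 x ≤ H x) →
      ∫ ω, F (X ω) ∂P ≤ ∫ ω, H (Y ω) ∂P') :
    P {ω | X ω ∈ U} ≤ P' {ω | Y ω ∈ V} := by
  have h1 : ∀ i : ℕ, ∫ ω, (1 - ti (1 / ((i : ℝ) + 1)) Uᶜ (X ω)) ∂P ≤ P'.real {ω | Y ω ∈ V} := by
    intro i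
    refine ge_of_tendsto' (lim_closed hY hV hVi) fun j => ?_
    refine h _ _ (tst_ti (rad_pos i) hUi.compl).one_sub (tst_ti (rad_pos j) hVi) (fun x => ?_) fun x => ?_
    · by_cases hx : x ∈ U
      · rw [indicator_of_mem hx]
        have := ti_nonneg (1 / ((i : ℝ) + 1)) Uᶜ x
        simp only [Pi.one_apply]
        linarith
      · rw [indicator_of_notMem hx, ti_one _ (show x ∈ Uᶜ from hx), sub_self]
    · by_cases hx : x ∈ V
      · rw [indicator_of_mem hx, ti_one _ hx]; rfl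
      · rw [indicator_of_notMem hx]; exact ti_nonneg _ _ _
  have h2 : ∀ i : ℕ, ∫ ω, (1 - ti (1 / ((i : ℝ) + 1)) Uᶜ (X ω)) ∂P =
      1 - ∫ ω, ti (1 / ((i : ℝ) + 1)) Uᶜ (X ω) ∂P := by
    intro i
    rw [integral_sub (integrable_const _)]
    · simp
    · refine Integrable.of_bound (hX _ (tst_ti (rad_pos i) hUi.compl)).aestronglyMeasurable 1
        (Eventually.of_forall fun ω => ?_)
      rw [Real.norm_eq_abs, abs_of_nonneg (ti_nonneg _ _ _)]
      exact ti_le _ _ _
  have h3 : Tendsto (fun i : ℕ => ∫ ω, (1 - ti (1 / ((i : ℝ) + 1)) Uᶜ (X ω)) ∂P) atTop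
      (𝓝 (1 - P.real {ω | X ω ∈ Uᶜ})) := by
    simp only [h2]
    exact (lim_closed hX hU.isClosed_compl hUi.compl).const_sub 1
  have h4 : 1 - P.real {ω | X ω ∈ Uᶜ} ≤ P'.real {ω | Y ω ∈ V} := le_of_tendsto' h3 h1
  have h5 : P.real {ω | X ω ∈ U} = 1 - P.real {ω | X ω ∈ Uᶜ} := by
    have h6 := nm_closed hX hU.isClosed_compl hUi.compl
    have h7 := probReal_compl_eq_one_sub₀ (μ := P) h6
    rw [← h7]
    congr 1
    ext ω
    simp
  have h6 : P.real {ω | X ω ∈ U} ≤ P'.real {ω | Y ω ∈ V} := by rw [h5]; exact h4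
  exact (ENNReal.toReal_le_toReal (measure_ne_top _ _) (measure_ne_top _ _)).1 h6

/-- The limit of test functions along curves which converge a.s. -/
theorem lim_tst [IsProbabilityMeasure P] {G : ℕ → Ω → Crv} (hG : ∀ j, Mb P (G j))
    (hc : ∀ j : ℕ, ∀ᵐ ω ∂P, dist (G j ω) (X ω) ≤ 1 / ((j : ℝ) + 1)) {F : Crv → ℝ} (hF : Tst F) :
    Tendsto (fun j => ∫ ω, F (G j ω) ∂P) atTop (𝓝 (∫ ω, F (X ω) ∂P)) := by
  obtain ⟨M, hM⟩ := hF.bdd
  refine tendsto_integral_of_dominated_convergence (fun _ => M)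
    (fun j => (hG j F hF).aestronglyMeasurable) (integrable_const _)
    (fun j => Eventually.of_forall fun ω => hM _) ?_
  filter_upwards [ae_all_iff.2 hc] with ω hω
  refine (hF.cont.tendsto _).comp ?_
  rw [tendsto_iff_dist_tendsto_zero]
  exact squeeze_zero (fun _ => dist_nonneg) hω tendsto_one_div_add_atTop_nhds_zero_nat

/-- **Portmanteau, lower side.** -/
theorem port_below [IsProbabilityMeasure P] [IsProbabilityMeasure P'] (hX : Mb P X) (hY : Mb P' Y)
    {M : ℕ → (Crv → ℝ) → ℝ} {m : ℕ → ℕ} (hm : Tendsto m atTop atTop) (hL : Lm (fun n => M (m n)) P' Y)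
    (hM : ∀ n F H, (∀ x, F x ≤ H x) → M n F ≤ M n H)
    {U V : Set Crv} (hU : IsOpen U) (hUi : Inv U) (hV : IsClosed V) (hVi : Inv V)
    (h : ∀ ε > 0, ∃ (M' : ℕ → (Crv → ℝ) → ℝ) (G : Ω → Crv), Lm M' P G ∧ Mb P G ∧
      (∀ᵐ ω ∂P, dist (G ω) (X ω) ≤ ε) ∧ (∀ n F H, (∀ x, F x ≤ H x) → M' n F ≤ M' n H) ∧
      ∀ᶠ n in atTop, M' n (U.indicator 1) ≤ M n (V.indicator 1)) :
    P {ω | X ω ∈ U} ≤ P' {ω | Y ω ∈ V} := by
  refine cmp_of_tst hX hY hU hUi hV hVi fun F H hF hH hFU hVH => ?_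
  choose! M' G h1 h2 h3 h4 h5 using h
  have key : ∀ ε > 0, ∫ ω, F (G ε ω) ∂P ≤ ∫ ω, H (Y ω) ∂P' := fun ε hε => by
    refine le_of_tendsto_of_tendsto ((h1 ε hε F hF).comp hm) (hL H hH) ?_
    filter_upwards [hm.eventually (h5 ε hε)] with n hn
    exact ((h4 ε hε _ _ _ hFU).trans hn).trans (hM _ _ _ hVH)
  exact le_of_tendsto' (lim_tst (G := fun j : ℕ => G (1 / ((j : ℝ) + 1))) (fun j => h2 _ (rad_pos j))
    (fun j => h3 _ (rad_pos j)) hF) fun j => key _ (rad_pos j)

/-- **Portmanteau, upper side.** -/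
theorem port_above [IsProbabilityMeasure P] [IsProbabilityMeasure P'] (hX : Mb P X) (hY : Mb P' Y)
    {M : ℕ → (Crv → ℝ) → ℝ} {m : ℕ → ℕ} (hm : Tendsto m atTop atTop) (hL : Lm (fun n => M (m n)) P' Y)
    (hM : ∀ n F H, (∀ x, F x ≤ H x) → M n F ≤ M n H)
    {U V : Set Crv} (hU : IsOpen U) (hUi : Inv U) (hV : IsClosed V) (hVi : Inv V)
    (h : ∀ ε > 0, ∃ (M' : ℕ → (Crv → ℝ) → ℝ) (G : Ω → Crv), Lm M' P G ∧ Mb P G ∧
      (∀ᵐ ω ∂P, dist (G ω) (X ω) ≤ ε) ∧ (∀ n F H, (∀ x, F x ≤ H x) → M' n F ≤ M' n H) ∧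
      ∀ᶠ n in atTop, M n (U.indicator 1) ≤ M' n (V.indicator 1)) :
    P' {ω | Y ω ∈ U} ≤ P {ω | X ω ∈ V} := by
  refine cmp_of_tst hY hX hU hUi hV hVi fun F H hF hH hFU hVH => ?_
  choose! M' G h1 h2 h3 h4 h5 using h
  have key : ∀ ε > 0, ∫ ω, F (Y ω) ∂P' ≤ ∫ ω, H (G ε ω) ∂P := fun ε hε => by
    refine le_of_tendsto_of_tendsto (hL F hF) ((h1 ε hε H hH).comp hm) ?_
    filter_upwards [hm.eventually (h5 ε hε)] with n hn
    exact ((hM _ _ _ hFU).trans hn).trans (h4 ε hε _ _ _ hVH)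
  exact ge_of_tendsto' (lim_tst (G := fun j : ℕ => G (1 / ((j : ℝ) + 1))) (fun j => h2 _ (rad_pos j))
    (fun j => h3 _ (rad_pos j)) hH) fun j => key _ (rad_pos j)

end

end Vale.Agent.P167.H437Q.C3
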