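import Vale.Agent.P167.H437Q.C3c

/-!
# P167, general `q`, route (C), block (C3): the theorem `C3_of K q`
-/

open MeasureTheory Set Filter Topology Metric
open scoped ENNReal NNReal

namespace Vale.Agent.P167.H437Q.C3

open Vale.Agent.P153.R2.Final (dom circ toC IsUniformizer)
open Vale.Agent.P167.E6 (edges IsInterface Approx pt wiredOpen)
open Vale.Agent.P167.QE (Cls wq)
open Vale.Agent.P167.H199.C

/-- (C1) for finite families, in terms of `PV` and `PH`. -/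
theorem fam_C1 (hC1 : S_C1) {q : ℝ} (hq : 0 < q) {Φ : (ℝ × ℝ) ≃ₜ (ℝ × ℝ)} {m : ℕ}
    {A B A' B' : Fin m → Set ℂ} (hA : ∀ j, Adm Φ (A j) (B j)) (hA' : ∀ j, Adm Φ (A' j) (B' j))
    (hM : ∀ j, Mar (A j) (B j) (A' j) (B' j)) : ∃ r₀ > 0, ∀ r : ℝ, |r| ≤ r₀ → ∃ ε > 0,
      ∀ (δ : ℝ) (N k : ℕ) (p : ZMod N → ℤ × ℤ) (S : Finset (ℤ × ℤ)),
        Close (shift Φ r) ε δ k p S → ∀ c : Finset (Sym2 (ℤ × ℤ)) → C(unitInterval, ℂ),
          (∀ X ⊆ edges S, IsInterface p k δ X (c X)) →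
          PV q p k S c (⋂ j, Vale.Agent.P167.H199.C.Vis (A j) (B j)) ≤ PH q δ p k S A' B' ∧
          PH q δ p k S A B ≤ PV q p k S c (⋂ j, VisC (A' j) (B' j)) := by
  choose f hf h1 using fun j => hC1 Φ (A j) (B j) (A' j) (B' j) (hA j) (hA' j) (hM j)
  obtain ⟨r₀, hr₀, hr⟩ := pos_min hf
  refine ⟨r₀, hr₀, fun r hrr => ?_⟩
  choose g hg h2 using fun j => h1 j r (hrr.trans (hr j))
  obtain ⟨ε, hε, hε'⟩ := pos_min hg
  refine ⟨ε, hε, fun δ N k p S hcl c hc => ⟨?_, ?_⟩⟩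
  · refine mean_mono hq p k S fun X hX => ?_
    have h3 := fun j => (h2 j δ N k p S (close_mono hcl (hε' j)) X hX (c X) (hc X hX)).1
    by_cases h4 : c X ∈ ⋂ j, Vale.Agent.P167.H199.C.Vis (A j) (B j)
    · rw [indicator_of_mem h4, indicator_of_mem
        (mem_iInter.2 fun j => h3 j (mem_iInter.1 h4 j))]
      rfl
    · rw [indicator_of_notMem h4]
      exact indicator_nonneg (fun _ _ => zero_le_one) _
  · refine mean_mono hq p k S fun X hX => ?_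
    have h3 := fun j => (h2 j δ N k p S (close_mono hcl (hε' j)) X hX (c X) (hc X hX)).2
    by_cases h4 : H192.cfg (wiredOpen p k X) ∈ ⋂ j, Hit δ (A j) (B j) (H192.ro (p (-1)))
    · rw [indicator_of_mem h4, indicator_of_mem
        (mem_iInter.2 fun j => h3 j (mem_iInter.1 h4 j))]
      rfl
    · rw [indicator_of_notMem h4]
      exact indicator_nonneg (fun _ _ => zero_le_one) _

/-- **(C3) for one marked domain `Φ`**, the marked domains `shift Φ r` being approximable. -/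
theorem c3_core {K : Cls} {q κ : ℝ} (hq : 0 < q) (hC1 : S_C1) (hC2 : S_C2 q) (hst : S_stab)
    {Ω : Type} [MeasurableSpace Ω] {P : Measure Ω} [IsProbabilityMeasure P] {γ : Ω → ℝ → ℂ}
    (hCL : CL K κ (wq q) P γ) {Φ : (ℝ × ℝ) ≃ₜ (ℝ × ℝ)} {ψ : ℂ → ℂ}
    (hψ : IsUniformizer Φ ψ) {G : Ω → C(unitInterval, ℂ)} (hG : IsG Φ ψ P γ G)
    (hp : ∃ r₀ > 0, ∀ r : ℝ, |r| ≤ r₀ → PolyAt K (shift Φ r))
    {δ : ℕ → ℝ} {N k : ℕ → ℕ} {p : ∀ n, ZMod (N n) → ℤ × ℤ} {S : ℕ → Finset (ℤ × ℤ)}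
    (hAp : Approx Φ δ N k p S) {c : ∀ _ : ℕ, Finset (Sym2 (ℤ × ℤ)) → C(unitInterval, ℂ)}
    (hc : ∀ n, ∀ A ⊆ edges (S n), IsInterface (p n) (k n) (δ n) A (c n A))
    {m : ℕ} {A B : Fin 4 → Fin m → Set ℂ} (hAB : ∀ i j, Adm Φ (A i j) (B i j))
    (hM : ∀ i : Fin 3, ∀ j, Mar (A i.castSucc j) (B i.castSucc j) (A i.succ j) (B i.succ j))
    {e : ℝ} (he : 0 < e) : ∀ᶠ n in atTop,
      PV q (p n) (k n) (S n) (c n) (⋂ j, Vale.Agent.P167.H199.C.Vis (A 0 j) (B 0 j)) ≤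
        P.real {ω | ∀ j, G ω ∈ VisC (A 3 j) (B 3 j)} + e ∧
      P.real {ω | ∀ j, G ω ∈ Vale.Agent.P167.H199.C.Vis (A 0 j) (B 0 j)} ≤
        PV q (p n) (k n) (S n) (c n) (⋂ j, VisC (A 3 j) (B 3 j)) + e := by
  have hM0 : ∀ j, Mar (A 0 j) (B 0 j) (A 1 j) (B 1 j) := hM 0
  have hM1 : ∀ j, Mar (A 1 j) (B 1 j) (A 2 j) (B 2 j) := hM 1
  have hM2 : ∀ j, Mar (A 2 j) (B 2 j) (A 3 j) (B 3 j) := hM 2
  have hGm := mb_of_isG hG
  have hδ : ∀ n, 0 < δ n := fun n => (hAp.1 n).1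
  have hδ0 : Tendsto δ atTop (𝓝 0) := hAp.2.1
  have hsh : ∀ ε > 0, ∀ᶠ n in atTop, Close (shift Φ 0) ε (δ n) (k n) (p n) (S n) := by
    intro ε hε
    refine close_of_approx hε (η := 0) hε (fun t => ?_) hAp
    have h0 : circ t + (0, 0) = circ t := add_zero _
    rw [shift_apply, h0, dist_self]
  -- the constants
  obtain ⟨ra, hra, a1⟩ := fam_C1 hC1 hq (hAB 0) (hAB 1) hM0
  obtain ⟨rb, hrb, b1⟩ := hC2 Φ m (A 1) (B 1) (A 2) (B 2) (hAB 1) (hAB 2) hM1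
  obtain ⟨rc, hrc, c1⟩ := fam_C1 hC1 hq (hAB 2) (hAB 3) hM2
  obtain ⟨εa, hεa, a2⟩ := a1 0 (by simpa using hra.le)
  obtain ⟨εc, hεc, c2⟩ := c1 0 (by simpa using hrc.le)
  have hmono : ∀ (N : ℕ → ℕ) (k : ℕ → ℕ) (p : ∀ n, ZMod (N n) → ℤ × ℤ)
      (S : ℕ → Finset (ℤ × ℤ)) (c : ∀ _ : ℕ, Finset (Sym2 (ℤ × ℤ)) → Crv) (n : ℕ)
      (F H : Crv → ℝ), (∀ x, F x ≤ H x) →
      Final.mean q (p n) (k n) (S n) (fun X => F (c n X)) ≤
        Final.mean q (p n) (k n) (S n) (fun X => H (c n X)) :=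
    fun N k p S c n F H h => mean_mono hq _ _ _ fun X _ => h _
  have hup : ∀ᶠ n in atTop,
      PV q (p n) (k n) (S n) (c n) (⋂ j, Vale.Agent.P167.H199.C.Vis (A 0 j) (B 0 j)) ≤
        P.real {ω | ∀ j, G ω ∈ VisC (A 3 j) (B 3 j)} + e := by
    set V : Set Crv := ⋂ j, VisC (A 3 j) (B 3 j) with hVd
    have hV : IsClosed V := isClosed_iInter fun j => isClosed_visC (hAB 3 j).cB.isClosed
    have hVi : Inv V := Inv.iInter fun j => inv_visC _ _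
    obtain ⟨ε, hε, hpt⟩ := port_up hGm hV hVi he
    have hEx : ∀ r, 0 < r → r ≤ min rb rc → ∃ ε > 0,
        (∀ (δ : ℝ) (N₁ k₁ N₂ k₂ : ℕ) (p₁ : ZMod N₁ → ℤ × ℤ) (p₂ : ZMod N₂ → ℤ × ℤ)
          (S₁ S₂ : Finset (ℤ × ℤ)), Close (shift Φ 0) ε δ k₁ p₁ S₁ →
            Close (shift Φ (1 * r)) ε δ k₂ p₂ S₂ →
            PH q δ p₁ k₁ S₁ (A 1) (B 1) ≤ PH q δ p₂ k₂ S₂ (A 2) (B 2)) ∧
        ∀ (δ : ℝ) (N k : ℕ) (p : ZMod N → ℤ × ℤ) (S : Finset (ℤ × ℤ)),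
          Close (shift Φ (1 * r)) ε δ k p S → ∀ c : Finset (Sym2 (ℤ × ℤ)) → C(unitInterval, ℂ),
          (∀ X ⊆ edges S, IsInterface p k δ X (c X)) →
            PH q δ p k S (A 2) (B 2) ≤ PV q p k S c V := by
      intro r h0 hr
      rw [one_mul]
      obtain ⟨ε1, hε1, x1⟩ := b1 0 r (by simpa using hrb.le)
        (by rw [abs_of_pos h0]; exact hr.trans (min_le_left _ _)) h0
      obtain ⟨ε2, hε2, x2⟩ := c1 r (by rw [abs_of_pos h0]; exact hr.trans (min_le_right _ _))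
      refine ⟨min ε1 ε2, lt_min hε1 hε2, fun δ N₁ k₁ N₂ k₂ p₁ p₂ S₁ S₂ y1 y2 => ?_,
        fun δ N k p S y1 c y2 => ?_⟩
      · exact x1 δ N₁ k₁ N₂ k₂ p₁ p₂ S₁ S₂ (close_mono y1 (min_le_left _ _)) (close_mono y2 (min_le_left _ _))
      · exact (x2 δ N k p S (close_mono y1 (min_le_right _ _)) c y2).2
    choose! E hE hE1 hE2 using hEx
    obtain ⟨r, hr0, hr1, N', k', p', S', c', G', s1, s2, s3, s4, s5⟩ := side hst hCL hψ hG hp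
      (σ := 1) (by simp) hδ hδ0 (lt_min hrb hrc) hE hε
    filter_upwards [hsh εa hεa, hsh _ (hE r hr0 hr1), s1,
      hpt _ G' s4 s3 s5 (hmono N' k' p' S' c')] with n n1 n2 n3 n4
    have z1 := (a2 _ _ _ _ _ n1 (c n) (hc n)).1
    have z2 := hE1 r hr0 hr1 _ _ _ _ _ _ _ _ _ n2 n3
    have z3 := hE2 r hr0 hr1 _ _ _ _ _ n3 (c' n) (s2 n)
    have z4 : {ω | ∀ j, G ω ∈ VisC (A 3 j) (B 3 j)} = {ω | G ω ∈ V} := by
      ext ω
      simp [hVd]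
    rw [z4]
    exact (z1.trans (z2.trans z3)).trans n4
  have hlo : ∀ᶠ n in atTop,
      P.real {ω | ∀ j, G ω ∈ Vale.Agent.P167.H199.C.Vis (A 0 j) (B 0 j)} ≤
        PV q (p n) (k n) (S n) (c n) (⋂ j, VisC (A 3 j) (B 3 j)) + e := by
    set U : Set Crv := ⋂ j, Vale.Agent.P167.H199.C.Vis (A 0 j) (B 0 j) with hUd
    have hU : IsOpen U := isOpen_iInter_of_finite fun j => isOpen_vis (hAB 0 j).cA.isClosed
    have hUi : Inv U := Inv.iInter fun j => inv_vis _ _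
    obtain ⟨ε, hε, hpt⟩ := port_lo hGm hU hUi he
    have hEx : ∀ r, 0 < r → r ≤ min rb ra → ∃ ε > 0,
        (∀ (δ : ℝ) (N₁ k₁ N₂ k₂ : ℕ) (p₁ : ZMod N₁ → ℤ × ℤ) (p₂ : ZMod N₂ → ℤ × ℤ)
          (S₁ S₂ : Finset (ℤ × ℤ)), Close (shift Φ (-1 * r)) ε δ k₁ p₁ S₁ →
            Close (shift Φ 0) ε δ k₂ p₂ S₂ →
            PH q δ p₁ k₁ S₁ (A 1) (B 1) ≤ PH q δ p₂ k₂ S₂ (A 2) (B 2)) ∧
        ∀ (δ : ℝ) (N k : ℕ) (p : ZMod N → ℤ × ℤ) (S : Finset (ℤ × ℤ)),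
          Close (shift Φ (-1 * r)) ε δ k p S → ∀ c : Finset (Sym2 (ℤ × ℤ)) → C(unitInterval, ℂ),
          (∀ X ⊆ edges S, IsInterface p k δ X (c X)) →
            PV q p k S c U ≤ PH q δ p k S (A 1) (B 1) := by
      intro r h0 hr
      have habs : |-1 * r| = r := by rw [neg_one_mul, abs_neg, abs_of_pos h0]
      obtain ⟨ε1, hε1, x1⟩ := b1 (-1 * r) 0 (by rw [habs]; exact hr.trans (min_le_left _ _))
        (by simpa using hrb.le) (by linarith)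
      obtain ⟨ε2, hε2, x2⟩ := a1 (-1 * r) (by rw [habs]; exact hr.trans (min_le_right _ _))
      refine ⟨min ε1 ε2, lt_min hε1 hε2, fun δ N₁ k₁ N₂ k₂ p₁ p₂ S₁ S₂ y1 y2 => ?_,
        fun δ N k p S y1 c y2 => ?_⟩
      · exact x1 δ N₁ k₁ N₂ k₂ p₁ p₂ S₁ S₂ (close_mono y1 (min_le_left _ _)) (close_mono y2 (min_le_left _ _))
      · exact (x2 δ N k p S (close_mono y1 (min_le_right _ _)) c y2).1
    choose! E hE hE1 hE2 using hEx
    obtain ⟨r, hr0, hr1, N', k', p', S', c', G', s1, s2, s3, s4, s5⟩ := side hst hCL hψ hG hp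
      (σ := -1) (by simp) hδ hδ0 (lt_min hrb hra) hE hε
    filter_upwards [hsh εc hεc, hsh _ (hE r hr0 hr1), s1,
      hpt _ G' s4 s3 s5 (hmono N' k' p' S' c')] with n n1 n2 n3 n4
    have z1 := (c2 _ _ _ _ _ n1 (c n) (hc n)).2
    have z2 := hE1 r hr0 hr1 _ _ _ _ _ _ _ _ _ n3 n2
    have z3 := hE2 r hr0 hr1 _ _ _ _ _ n3 (c' n) (s2 n)
    have z4 : {ω | ∀ j, G ω ∈ Vale.Agent.P167.H199.C.Vis (A 0 j) (B 0 j)} = {ω | G ω ∈ U} := by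
      ext ω
      simp [hUd]
    have z5 : PV q (p' n) (k' n) (S' n) (c' n) U ≤
        PV q (p n) (k n) (S n) (c n) (⋂ j, VisC (A 3 j) (B 3 j)) := z3.trans (z2.trans z1)
    rw [z4]
    refine n4.trans ?_
    exact add_le_add_left z5 e
  exact hup.and hlo

/-- The domains `shift Φ r` of an approximable marked domain are approximable by marked domains with
approximations in `K`. -/
def S_polySh (K : Cls) : Prop := ∀ (Φ : (ℝ × ℝ) ≃ₜ (ℝ × ℝ)), HasApx Φ →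
  ∃ r₀ > 0, ∀ r : ℝ, |r| ≤ r₀ → PolyAt K (shift Φ r)

theorem polySh_of {K : Cls} (hsha : S_sha) (hpo : S_poly K) : S_polySh K := fun Φ hΦ =>
  ⟨1 / 2, by norm_num, fun r hr => polyAt_of hpo (hsha Φ hΦ r (by linarith))⟩

/-- **(C3)** from (C1), (C2), `S_polySh` and `S_stab`. -/
theorem c3_of_sh {K : Cls} {q κ : ℝ} (hq : 0 < q) (hC1 : S_C1) (hC2 : S_C2 q)
    (hpo : S_polySh K) (hst : S_stab) {Ω : Type} [MeasurableSpace Ω] {P : Measure Ω}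
    [IsProbabilityMeasure P] {γ : Ω → ℝ → ℂ} (hCL : CL K κ (wq q) P γ) : S_C3 q P γ := by
  intro Φ ψ hψ G hG δ N k p S hAp c hc m A B hAB hM e he
  exact c3_core hq hC1 hC2 hst hCL hψ hG (hpo Φ ⟨δ, N, k, p, S, hAp⟩) hAp hc hAB hM he

/-- **`C3_of`**, literally. -/
theorem c3_of {K : Cls} {q : ℝ} (hq : 0 < q) : C3_of K q := by
  intro hC1 hC2 hsha hpo hst Ω _ P _ γ hCL
  exact c3_of_sh hq hC1 hC2 (polySh_of hsha hpo) hst hCL

end Vale.Agent.P167.H437Q.C3
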