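import Vale.Agent.P167.H437Q.Du2

/-!
# P167, general `q`, block BETA: the deterministic part `S_DU` (`s_du`)
-/

namespace Vale.Agent.P167.H437Q.Du

open Finset Relation Vale.Agent.P167.BR Vale.Agent.P167
open Vale.Agent.P167.QX (lo hi exists_xy lo_xy hi_xy wB XB)
open Vale.Agent.P167.QB (gB gB_cos Ard ard_lp wB_hx dlt XG sg_cases sep_ard)
open Vale.Agent.P167.H436.ND
open Vale.Agent.P167.H192.TA (Xc Pw)
open Vale.Agent.P167.H542.Q (cB cB_pos wR thB wR_thB phs_thB)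
open Vale.Agent.P167.H562.QM (MajA)
open Vale.Agent.P167.H562.MAJ (Sm)
open Vale.Agent.P167.H562.SML (smf bd_G)
open Vale.Agent.P167.H640.ND (mem_sites_Zg)
open Vale.Agent.P167.H452.BE (ta XE R3 St Bad cb LkD LkP Fav S_DU)
open Vale.Agent.P167.H208.ND (Sj Sj_zero cls sL sL_eq zn_ring rng_ring range_i mass_av mass_01 mass_lin
  mass_ring kr_sites ard_l sep_iff vz_iff dlt_zero wB_free cls_iff cls_le a_mono)

variable {D : Finset (ℤ × ℤ)} {ω : Cfg} {n : ℕ} {q : ZMod n → ℤ × ℤ} {A : Finset Ed}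
  {l : ℕ} {θ : ℝ} {R : ℤ} {a : Fin 3 → ℤ} {M : ℝ} {f : Fin 3 → ℤ × ℤ → ℝ} {L1 : ℤ}

section

variable (hw : Win q D l R) (ha : Scl 4000 4 R a) (hn : (l : ℤ) + R ≤ n)
  (h0 : 0 < θ) (h1 : θ < Real.pi / 3) (hf0 : ∀ i z, 0 ≤ f i z)
  (hfs : ∀ i z, f i z ≠ 0 → z ∈ Kr (q l) (a i)) (hf1 : ∀ i, ∑ᶠ z, f i z = 1)

include hw ha hn in
/-- **The avoiding strands on the favourable event**: the charge of the surrounded rings is zero, or the
class is two, the sign is `- 1` and the strand contains a fixed edge. -/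
theorem av_fav (hL : 4 ≤ L1) (hLR : 2 * L1 * a 2 ≤ R) (hF : ω ∈ Fav q D l a L1) :
    ∃ e : Ed, ∀ A ∈ pcs ω D, (∀ i, ¬ Vz (Zr (q l) (a i)) A) → Ard q l A →
      Sj (ta θ) 0 (cls q (sL l a) A) = 0 ∨ (cls q (sL l a) A = 2 ∧ e ∈ A ∧ QB.sg q A = -1) := by
  obtain ⟨e, he⟩ := strand_fav hw ha hL hLR hF
  refine ⟨e, fun A hA hV hl => ?_⟩
  have hZ := zn_ring hw ha hn le_rfl
  have hcl := cls_iff hZ.sl hZ.anti hl
  have hlp : ¬ IsLp D A := fun h => ard_lp hw.poly hw.enc hA h hl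
  obtain ⟨e0, e1, e2, e3⟩ := sj_val θ
  have h3 := cls_le (q := q) (s := sL l a) A
  have hcase : cls q (sL l a) A = 0 ∨ cls q (sL l a) A = 1 ∨ cls q (sL l a) A = 2 ∨
      cls q (sL l a) A = 3 := by omega
  rcases hcase with hc | hc | hc | hc
  · exact Or.inl (by rw [hc, e0])
  · -- class one: the dual crossing of the gap
    exfalso
    rw [hc] at hcl
    have i0 := (hcl 0).2 (by decide)
    have i1 : ¬ Ard q (sL l a 1) A := fun h => absurd ((hcl 1).1 h) (by decide)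
    have g := H640.ND.s_gap n q D l R hw 3 a (fun i => 2 * a i) (zns_a hw ha) ω A hA hV 0 1 rfl
      false hF.2.1 (q (sL l a 0)) (hZ.ms 0) (q (sL l a 1)) (hZ.ms 1)
    rw [sep_iff hw.poly hw.enc hZ 0 hA (hV 0) (hZ.ms 0),
      sep_iff hw.poly hw.enc hZ 1 hA (hV 1) (hZ.ms 1)] at g
    exact i1 (g.1 i0)
  · refine Or.inr ⟨hc, ?_⟩
    rw [hc] at hcl
    have i1 : Ard q (sL l a 1) A := (hcl 1).2 (by decide)
    have i2 : ¬ Ard q (sL l a 2) A := fun h => absurd ((hcl 2).1 h) (by decide)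
    -- a foot of the strand near `q l`
    have hv : Vz (hbox (q l) (2 * a 2 + 2)) A := by
      obtain ⟨k1, k2, k3, k4⟩ := range_i hw ha 2
      have s2 := sL_eq hw ha 2
      obtain ⟨x, y, h⟩ := exists_xy hw.poly hw.enc hA hlp
      have hlo := lo_xy hw.poly hw.enc hA h
      have h7 : (l : ℤ) - a 2 ≤ lo q A ∧ (lo q A : ℤ) < l := by
        have h8 := hl.1
        have h9 := hl.2
        have h10 : ¬ (lo q A < sL l a 2 ∧ sL l a 2 ≤ hi q A) := i2
        omega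
      have h11 : be q ((lo q A : ℕ) : ZMod n) ∈ A := by
        rw [hlo]
        rcases le_total x y with h9 | h9
        · rw [min_eq_left h9]; exact h.2.2.1
        · rw [min_eq_right h9]; exact h.2.2.2.1
      exact (foot_vis hw (r := a 2) (by omega) (by omega) h11 h7.1 (by omega)).mono
        (hbox_mono (by omega))
    rcases he A hA hlp hv with h2 | h2
    · exfalso
      -- the core of the ring `1` is separated
      have hz : ((q l).1, (q l).2 + (5 * a 1 + 3) / 4) ∈ Kr (q l) (a 1) := by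
        have := range_i hw ha 1
        simp only [Kr, Set.mem_ofPred_eq]
        omega
      have k1 := range_i hw ha 1
      refine h2 _ (cb_sites (by omega) hz) ?_
      rw [sep_iff hw.poly hw.enc hZ 1 hA (hV 1) (kr_sites (by omega) hz)]
      exact i1
    · exact h2
  · exact Or.inl (by rw [hc, e3])

include hw ha hn h0 h1 hfs hf1 in
open Classical in
/-- The product over the avoiding pieces on the favourable event. -/
theorem av_lo (hM : Md θ M) (hL : 4 ≤ L1) (hLR : 2 * L1 * a 2 ≤ R) (hF : ω ∈ Fav q D l a L1) :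
    M⁻¹ ≤ ∏ A ∈ (pcs ω D).filter (fun A => ∀ i, ¬ Vz (Zr (q l) (a i)) A),
      wB θ (gB θ) q D n A (mass D (q 0) (Ft (ta θ) f 0) A) := by
  have hpi := Real.pi_pos
  have hs : 0 < Real.sin θ := Real.sin_pos_of_pos_of_lt_pi h0 (by linarith)
  have hs2 : 0 < Real.sin (2 * θ) := Real.sin_pos_of_pos_of_lt_pi (by linarith) (by linarith)
  have hM1 := hM.h1
  obtain ⟨e, he⟩ := av_fav (θ := θ) hw ha hn hL hLR hF
  -- the weights
  have key : ∀ A ∈ (pcs ω D).filter (fun A => ∀ i, ¬ Vz (Zr (q l) (a i)) A),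
      wB θ (gB θ) q D n A (mass D (q 0) (Ft (ta θ) f 0) A) = 1 ∨
      (e ∈ A ∧ M⁻¹ ≤ wB θ (gB θ) q D n A (mass D (q 0) (Ft (ta θ) f 0) A)) := by
    intro A hA
    rw [mem_filter] at hA
    rw [av_w hw ha hn h0 h1 hfs hf1 hA.1 hA.2]
    by_cases hl : Ard q l A
    · rw [if_pos hl]
      rcases he A hA.1 hA.2 hl with h3 | ⟨h3, h4, h5⟩
      · left
        rw [h3, sub_zero, add_zero, div_self hs.ne', div_self hs2.ne', ite_self]
      · right
        rw [if_neg (by rw [h5]; decide), h3, (sj_val θ).2.2.1]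
        exact ⟨h4, hM.w4 θ (by linarith) le_rfl⟩
    · left
      rw [if_neg hl]
  by_cases hall : ∀ A ∈ (pcs ω D).filter (fun A => ∀ i, ¬ Vz (Zr (q l) (a i)) A),
      wB θ (gB θ) q D n A (mass D (q 0) (Ft (ta θ) f 0) A) = 1
  · rw [prod_eq_one hall]
    exact inv_le_one_of_one_le₀ hM1
  · push Not at hall
    obtain ⟨A0, hA0, hne⟩ := hall
    obtain ⟨h3, h4⟩ := (key A0 hA0).resolve_left hne
    rw [prod_eq_single A0]
    · exact h4
    · intro B hB hBA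
      by_contra h5
      obtain ⟨h6, -⟩ := (key B hB).resolve_left h5
      rw [mem_filter] at hA0 hB
      exact hBA (eq_of_mem_pcs hB.1 hA0.1 h6 h3)
    · intro h5
      exact absurd hA0 h5

include hw ha hn in
/-- The favourable event is contained in `St`. -/
theorem fav_st (hL : 4 ≤ L1) (hLR : 2 * L1 * a 2 ≤ R) (hF : ω ∈ Fav q D l a L1) :
    ω ∈ St q D l a := by
  classical
  intro A hA hV hc
  have hV' : ∀ i, ¬ Vz (Zr (q l) (a i)) A := fun i hi => hV (vz_iff.2 ⟨i, hi⟩)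
  have hcls : cls q (sL l a) A = 2 := by
    rw [← hc]
    unfold cls clz
    refine congrArg Finset.card ?_
    refine filter_congr fun i _ => ?_
    refine (sep_iff hw.poly hw.enc (zn_ring hw ha hn le_rfl) i hA (hV' i) ?_).symm
    have h1 := range_i hw ha i
    show zf (q l) a i ∈ sites (Zg (q l) (a i) (2 * a i))
    rw [mem_sites_Zg (by omega) (by omega)]
    unfold zf
    simp only
    omega
  have hl : Ard q l A := by
    by_contra hl
    have h2 : cls q (sL l a) A = 0 := by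
      unfold cls
      rw [card_eq_zero, filter_eq_empty_iff]
      intro i _ h3
      exact hl (ard_l hw.poly hw.enc (zn_ring hw ha hn le_rfl) i hA (hV' i) h3)
    omega
  obtain ⟨e, he⟩ := av_fav (θ := 1) hw ha hn hL hLR hF
  rcases he A hA hV' hl with h3 | ⟨-, -, h5⟩
  · rw [hcls, (sj_val 1).2.2.1] at h3
    norm_num at h3
  · exact h5

/-! ### the visiting pieces -/

omit hfs hf1 in
/-- The small loops have a small charge. -/
theorem g_small (h0 : 0 < θ) (h1 : θ < Real.pi / 3) {b : ℤ × ℤ} {i : Fin 3} (ha : 4000 ≤ a i)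
    (hb : Bp 1000 b (a i) (f i)) {ℓ : Finset Ed} (hℓ : IsLoop ω ℓ) (hs : Small (kp * a i) ℓ) :
    |G (fun z => ta θ i * f i z) ℓ| ≤ 1 / 10 := by
  have hpi := Real.pi_lt_d2
  have ha' : (4000 : ℝ) ≤ a i := by exact_mod_cast ha
  have ht : |ta θ i| ≤ 11 / 10 := by
    have : ta θ i = θ / 2 ∨ ta θ i = -θ := by
      fin_cases i <;> simp [ta]
    rcases this with h | h <;> rw [h]
    · rw [abs_of_pos (by linarith)]; linarith
    · rw [abs_neg, abs_of_pos h0]; linarith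
  have hm : ∀ v, |ta θ i * f i v| ≤ 1100 / (a i : ℝ) ^ 2 := fun v => by
    rw [abs_mul, abs_of_nonneg (hb.nonneg v)]
    have h2 := hb.le v
    have h3 := hb.nonneg v
    calc |ta θ i| * f i v ≤ 11 / 10 * (1000 / (a i : ℝ) ^ 2) := by
          exact mul_le_mul ht h2 h3 (by norm_num)
      _ = 1100 / (a i : ℝ) ^ 2 := by ring
  have h := bd_G (κ := kp) (ρ := a i) (Cm := 1100) (by linarith) (by norm_num) hm ω ℓ (kp * a i) hℓ
    le_rfl hs
  refine h.trans ?_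
  have e : kp * (a i : ℝ) / a i = kp := by field_simp
  rw [e]
  unfold kp
  norm_num

variable (hM : Md θ M) (hbp : ∀ i, Bp 1000 (q l) (a i) (f i))

include hw ha hn h0 h1 hM hbp in
open Classical in
/-- The product over the visiting pieces. -/
theorem vis_bd {N : Fin 3 → ℕ} (hN : ∀ i, MajA (Zr (q l) (a i)) (kp * a i) ω (N i)) :
    |∏ A ∈ (pcs ω D).filter (fun A => ∃ i, Vz (Zr (q l) (a i)) A),
      wB θ (gB θ) q D n A (mass D (q 0) (Ft (ta θ) f 0) A)| ≤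
      ∏ i, Yu θ M (ta θ i) (f i) (a i) (N i) ω ∧
    ((∀ A ∈ pcs ω D, (∃ i, Vz (Zr (q l) (a i)) A) →
        M⁻¹ ≤ wB θ (gB θ) q D n A (mass D (q 0) (Ft (ta θ) f 0) A)) →
      ∏ i, (Yl θ M (ta θ i) (f i) (q l) (a i) (N i) ω)⁻¹ ≤
      ∏ A ∈ (pcs ω D).filter (fun A => ∃ i, Vz (Zr (q l) (a i)) A),
        wB θ (gB θ) q D n A (mass D (q 0) (Ft (ta θ) f 0) A)) := by
  have hfs : ∀ i z, f i z ≠ 0 → z ∈ Kr (q l) (a i) := fun i => (hbp i).supp
  have e1 : Ft (fun _ => 1) (fun i z => ta θ i * f i z) 0 = Ft (ta θ) f 0 := by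
    funext z
    simp [Ft]
  have key := H542.Q.PW.s_PW θ (cB θ) D (thB θ (gB θ) q D n) (q 0) (phs_thB h0 h1.le (gB_cos θ)) 3
    (fun i => Zr (q l) (a i)) (fun i => Kr (q l) (a i)) (fun i => kp * a i) (rng_ring hw ha)
    (fun i z => ta θ i * f i z) 0 (fun i z hz => hfs i z (right_ne_zero_of_mul hz)) ω
    (fun i ℓ hℓ hs => g_small h0 h1 (range_i hw ha i).1 (hbp i) hℓ hs)
    (fun A hA hv => ⟨mass_zero A, fun hl => ?_⟩) N hN M hM.h1 hM.cb
  · rw [e1] at key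
    simp only [wR_thB (gB_cos θ)] at key
    refine ⟨key.1, fun hgood => ?_⟩
    refine le_trans (le_of_eq ?_) (key.2 fun A hA hv => ?_)
    · refine prod_congr rfl fun i _ => ?_
      unfold Yl
      rw [mul_inv, ← Real.exp_neg, inv_pow]
      congr 2
      ring
    · obtain ⟨i, hv, -⟩ := hv
      exact hgood A hA ⟨i, hv⟩
  · obtain ⟨h2, h3⟩ := H135.ND.s_small n q D l R hw 3 a ha ω A hA hv
    rw [e1, mass_lin, mass_zero, add_zero]
    refine sum_eq_zero fun i _ => ?_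
    have : mass D (q 0) (f i) A = 0 := by
      unfold mass
      refine sum_eq_zero fun z _ => ?_
      by_cases hz : f i z = 0
      · rw [hz, ite_self]
      · rw [if_neg (h3 hl i z (hfs i z hz))]
    rw [this, mul_zero]

include hw ha hn h0 h1 hM hbp in
/-- **The four properties.** -/
theorem du {N : Fin 3 → ℕ} (hN : ∀ i, MajA (Zr (q l) (a i)) (kp * a i) ω (N i)) :
    |XE θ q D f ω| ≤ M ^ 4 * ∏ i, Yu θ M (ta θ i) (f i) (a i) (N i) ω ∧
    (XE θ q D f ω ≠ 0 → ω ∈ St q D l a) ∧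
    (ω ∉ Bad (q l) a → 0 ≤ XE θ q D f ω) ∧
    ∀ L1 : ℤ, 4 ≤ L1 → 2 * L1 * a 2 ≤ R → ω ∈ Fav q D l a L1 → ω ∈ St q D l a ∧
      1 ≤ M ^ 4 * (XE θ q D f ω * ∏ i, Yl θ M (ta θ i) (f i) (q l) (a i) (N i) ω) := by
  classical
  have hf0 : ∀ i z, 0 ≤ f i z := fun i => (hbp i).nonneg
  have hfs : ∀ i z, f i z ≠ 0 → z ∈ Kr (q l) (a i) := fun i => (hbp i).supp
  have hf1 : ∀ i, ∑ᶠ z, f i z = 1 := fun i => (hbp i).sum
  have hM1 := hM.h1
  have hM0 : 0 < M := by linarith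
  obtain ⟨k1, k2⟩ := vis_bd hw ha hn h0 h1 hM hbp hN
  obtain ⟨k3, k4⟩ := av_up hw ha hn h0 h1 hfs hf1 (ω := ω) hM
  have hX : XE θ q D f ω = (∏ A ∈ (pcs ω D).filter (fun A => ∀ i, ¬ Vz (Zr (q l) (a i)) A),
      wB θ (gB θ) q D n A (mass D (q 0) (Ft (ta θ) f 0) A)) *
      ∏ A ∈ (pcs ω D).filter (fun A => ∃ i, Vz (Zr (q l) (a i)) A),
        wB θ (gB θ) q D n A (mass D (q 0) (Ft (ta θ) f 0) A) := by
    unfold XE XG QX.XB
    rw [← prod_filter_mul_prod_filter_not (pcs ω D) (fun A => ∀ i, ¬ Vz (Zr (q l) (a i)) A)]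
    congr 1
    refine prod_congr ?_ fun _ _ => rfl
    refine filter_congr fun A _ => ?_
    push Not
    rfl
  refine ⟨?_, st_of_ne hw ha hn h0 h1 hfs hf1, fun hb => ?_, fun L1 hL hLR hF =>
    ⟨fav_st hw ha hn hL hLR hF, ?_⟩⟩
  · rw [hX, abs_mul, abs_of_nonneg k3]
    exact mul_le_mul k4 k1 (abs_nonneg _) (by positivity)
  · show 0 ≤ ∏ A ∈ pcs ω D, _
    exact prod_nonneg fun A hA => w_nonneg hw ha hn h0 h1 hf0 hfs hf1 hb hA
  · have k5 := av_lo hw ha hn h0 h1 hfs hf1 hM hL hLR hF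
    have k6 := k2 fun A hA hV => w_fav hw ha hn h0 h1 hf0 hfs hf1 hM hL hLR hF hA hV
    rw [hX]
    obtain ⟨W, hW⟩ : ∃ W, W = ∏ A ∈ (pcs ω D).filter (fun A => ∀ i, ¬ Vz (Zr (q l) (a i)) A),
      wB θ (gB θ) q D n A (mass D (q 0) (Ft (ta θ) f 0) A) := ⟨_, rfl⟩
    obtain ⟨U, hU⟩ : ∃ U, U = ∏ A ∈ (pcs ω D).filter (fun A => ∃ i, Vz (Zr (q l) (a i)) A),
      wB θ (gB θ) q D n A (mass D (q 0) (Ft (ta θ) f 0) A) := ⟨_, rfl⟩
    obtain ⟨Y, hY⟩ : ∃ Y, Y = ∏ i, Yl θ M (ta θ i) (f i) (q l) (a i) (N i) ω := ⟨_, rfl⟩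
    rw [← hW] at k5 ⊢
    rw [← hU] at k6 ⊢
    rw [← hY]
    rw [prod_inv_distrib, ← hY] at k6
    have hY0 : 0 < Y := by
      rw [hY]
      refine prod_pos fun i _ => ?_
      unfold Yl
      positivity
    have h6 : 1 ≤ U * Y := by
      have := mul_le_mul_of_nonneg_right k6 hY0.le
      rwa [inv_mul_cancel₀ hY0.ne'] at this
    have h7 : M ≤ M ^ 4 := le_self_pow₀ hM1 (by norm_num)
    have h8 : 1 ≤ M ^ 4 * W := by
      have h9 : 1 ≤ M * W := by
        have := mul_le_mul_of_nonneg_left k5 hM0.le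
        rwa [mul_inv_cancel₀ hM0.ne'] at this
      have hW0 : 0 ≤ W := le_trans (by positivity) k5
      exact h9.trans (mul_le_mul_of_nonneg_right h7 hW0)
    calc (1 : ℝ) ≤ M ^ 4 * W * (U * Y) := one_le_mul_of_one_le_of_one_le h8 h6
      _ = _ := by ring

end

theorem scl_of_r3 (h : R3 4000 8 R a) : Scl 4000 4 R a := by
  obtain ⟨h1, h2, h3, h4⟩ := h
  refine ⟨fun i => ?_, fun i j hij => ?_, fun i => ?_⟩
  · fin_cases i
    · exact h1
    · show 4000 ≤ a 1; omega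
    · show 4000 ≤ a 2; omega
  · have hc : (i = 0 ∧ j = 1) ∨ (i = 0 ∧ j = 2) ∨ (i = 1 ∧ j = 2) := by
      revert hij
      fin_cases i <;> fin_cases j <;> simp
    rcases hc with ⟨rfl, rfl⟩ | ⟨rfl, rfl⟩ | ⟨rfl, rfl⟩ <;> omega
  · fin_cases i
    · show 8 * a 0 ≤ R; omega
    · show 8 * a 1 ≤ R; omega
    · show 8 * a 2 ≤ R; omega

/-- **(DU)** -/
theorem s_du (h0 : 0 < θ) (h1 : θ < Real.pi / 3) : S_DU θ := by
  obtain ⟨M, hM⟩ := exists_md h0 h1
  have hM1 := hM.h1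
  refine ⟨M ^ 4, M, 8, 4000, by positivity, hM1, by norm_num, by norm_num, ?_⟩
  intro n q D l R hw a ha f hf ω N hN
  have ha' := scl_of_r3 ha
  exact du hw ha' (range_i hw ha' 0).2.2.2 h0 h1 hM hf hN

end Vale.Agent.P167.H437Q.Du
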