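import Vale.Agent.P167.H437Q.C3a
import Vale.Agent.P167.H199.C.CDefs

/-!
# P167, general `q`, route (C), block (C3): bounds for curves close to `G`, the events `Vis`, `VisC`
-/

open MeasureTheory Set Filter Topology Metric
open scoped ENNReal NNReal

namespace Vale.Agent.P167.H437Q.C3

open Vale.Agent.P153.R2.C1 (reparam)
open Vale.Agent.P167.H199.C (VisC)

section

variable {Ω : Type*} [MeasurableSpace Ω] {P : Measure Ω} {X : Ω → Crv}

/-- The integral of a test function is continuous in the curve. -/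
theorem unif_tst [IsProbabilityMeasure P] {F : Crv → ℝ} (hF : Tst F) {e : ℝ} (he : 0 < e) :
    ∃ ε > 0, ∀ G : Ω → Crv, Mb P G → (∀ᵐ ω ∂P, dist (G ω) (X ω) ≤ ε) →
      |∫ ω, F (G ω) ∂P - ∫ ω, F (X ω) ∂P| < e := by
  by_contra hcon
  push Not at hcon
  choose! G h1 h2 h3 using hcon
  have h4 := lim_tst (P := P) (X := X) (G := fun j : ℕ => G (1 / ((j : ℝ) + 1)))
    (fun j => h1 _ (rad_pos j)) (fun j => h2 _ (rad_pos j)) hF
  have h5 := Metric.tendsto_nhds.1 h4 e he
  obtain ⟨j, hj⟩ := h5.exists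
  rw [Real.dist_eq] at hj
  exact absurd hj (not_lt.2 (h3 _ (rad_pos j)))

/-- **Closed events.** -/
theorem port_up [IsProbabilityMeasure P] (hX : Mb P X) {V : Set Crv} (hV : IsClosed V) (hVi : Inv V)
    {e : ℝ} (he : 0 < e) : ∃ ε > 0, ∀ (M : ℕ → (Crv → ℝ) → ℝ) (G : Ω → Crv), Lm M P G → Mb P G →
      (∀ᵐ ω ∂P, dist (G ω) (X ω) ≤ ε) → (∀ n F H, (∀ x, F x ≤ H x) → M n F ≤ M n H) →
      ∀ᶠ n in atTop, M n (V.indicator 1) ≤ P.real {ω | X ω ∈ V} + e := by
  obtain ⟨j, hj⟩ := ((lim_closed hX hV hVi).eventually_lt_const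
    (show P.real {ω | X ω ∈ V} < P.real {ω | X ω ∈ V} + e / 3 by linarith)).exists
  have hF := tst_ti (rad_pos j) hVi
  obtain ⟨ε, hε, h⟩ := unif_tst (P := P) (X := X) hF (e := e / 3) (by positivity)
  refine ⟨ε, hε, fun M G hL hG hd hM => ?_⟩
  have h1 := (abs_lt.1 (h G hG hd)).2
  have h2 := (hL _ hF).eventually_lt_const
    (show ∫ ω, ti (1 / ((j : ℝ) + 1)) V (G ω) ∂P < P.real {ω | X ω ∈ V} + e by linarith)
  filter_upwards [h2] with n hn
  refine (hM n _ _ fun x => ?_).trans hn.le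
  by_cases hx : x ∈ V
  · rw [indicator_of_mem hx, ti_one _ hx]; rfl
  · rw [indicator_of_notMem hx]; exact ti_nonneg _ _ _

/-- **Open events.** -/
theorem port_lo [IsProbabilityMeasure P] (hX : Mb P X) {U : Set Crv} (hU : IsOpen U) (hUi : Inv U)
    {e : ℝ} (he : 0 < e) : ∃ ε > 0, ∀ (M : ℕ → (Crv → ℝ) → ℝ) (G : Ω → Crv), Lm M P G → Mb P G →
      (∀ᵐ ω ∂P, dist (G ω) (X ω) ≤ ε) → (∀ n F H, (∀ x, F x ≤ H x) → M n F ≤ M n H) →
      ∀ᶠ n in atTop, P.real {ω | X ω ∈ U} ≤ M n (U.indicator 1) + e := by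
  have h7 : P.real {ω | X ω ∈ U} = 1 - P.real {ω | X ω ∈ Uᶜ} := by
    have h6 := nm_closed hX hU.isClosed_compl hUi.compl
    rw [← probReal_compl_eq_one_sub₀ (μ := P) h6]
    congr 1
    ext ω
    simp
  obtain ⟨j, hj⟩ := ((lim_closed hX hU.isClosed_compl hUi.compl).eventually_lt_const
    (show P.real {ω | X ω ∈ Uᶜ} < P.real {ω | X ω ∈ Uᶜ} + e / 3 by linarith)).exists
  have hF := tst_ti (rad_pos j) hUi.compl
  have hF' := hF.one_sub
  have hint : ∀ G : Ω → Crv, Mb P G → ∫ ω, (1 - ti (1 / ((j : ℝ) + 1)) Uᶜ (G ω)) ∂P =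
      1 - ∫ ω, ti (1 / ((j : ℝ) + 1)) Uᶜ (G ω) ∂P := by
    intro G hG
    rw [integral_sub (integrable_const _)]
    · simp
    · refine Integrable.of_bound (hG _ hF).aestronglyMeasurable 1
        (Eventually.of_forall fun ω => ?_)
      rw [Real.norm_eq_abs, abs_of_nonneg (ti_nonneg _ _ _)]
      exact ti_le _ _ _
  obtain ⟨ε, hε, h⟩ := unif_tst (P := P) (X := X) hF' (e := e / 3) (by positivity)
  refine ⟨ε, hε, fun M G hL hG hd hM => ?_⟩
  have h1 := (abs_lt.1 (h G hG hd)).1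
  rw [hint X hX] at h1
  have h2 := (hL _ hF').eventually_const_lt
    (show P.real {ω | X ω ∈ U} - e < ∫ ω, (1 - ti (1 / ((j : ℝ) + 1)) Uᶜ (G ω)) ∂P by linarith)
  filter_upwards [h2] with n hn
  have h3 : M n (fun x => 1 - ti (1 / ((j : ℝ) + 1)) Uᶜ x) ≤ M n (U.indicator 1) := by
    refine hM n _ _ fun x => ?_
    by_cases hx : x ∈ U
    · rw [indicator_of_mem hx]
      have := ti_nonneg (1 / ((j : ℝ) + 1)) Uᶜ x
      simp only [Pi.one_apply]
      linarith
    · rw [indicator_of_notMem hx, ti_one _ (show x ∈ Uᶜ from hx), sub_self]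
  linarith

end

/-! ### the events -/

theorem isOpen_vis {A B : Set ℂ} (hA : IsClosed A) : IsOpen (Vale.Agent.P167.H199.C.Vis A B) := by
  have e : Vale.Agent.P167.H199.C.Vis A B = ⋃ t : unitInterval, {x : Crv | x t ∈ interior B} ∩
      {x : Crv | MapsTo x (Iic t) Aᶜ} := by
    ext x
    simp only [Vale.Agent.P167.H199.C.Vis, mem_ofPred_eq, mem_iUnion, mem_inter_iff]
    rfl
  rw [e]
  refine isOpen_iUnion fun t => IsOpen.inter ?_ ?_
  · exact isOpen_interior.preimage (continuous_eval_const t)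
  · exact ContinuousMap.isOpen_setOfPred_mapsTo isClosed_Iic.isCompact hA.isOpen_compl

theorem isClosed_visC {A B : Set ℂ} (hB : IsClosed B) : IsClosed (VisC A B) := by
  have e : VisC A B = Prod.fst '' {y : Crv × unitInterval | y.1 y.2 ∈ B ∧
      ∀ s < y.2, y.1 s ∉ interior A} := by
    ext x
    simp only [VisC, mem_ofPred_eq, mem_image, Prod.exists, exists_and_right, exists_eq_right]
  rw [e]
  refine isClosedMap_fst_of_compactSpace _ ?_
  have h1 : IsClosed {y : Crv × unitInterval | y.1 y.2 ∈ B} :=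
    hB.preimage (continuous_eval (F := Crv) (X := unitInterval) (Y := ℂ))
  have h2 : IsClosed {y : Crv × unitInterval | ∀ s < y.2, y.1 s ∉ interior A} := by
    have e2 : {y : Crv × unitInterval | ∀ s < y.2, y.1 s ∉ interior A} =
        ⋂ s : unitInterval, {y : Crv × unitInterval | y.2 ≤ s} ∪
          {y : Crv × unitInterval | y.1 s ∈ (interior A)ᶜ} := by
      ext y
      simp only [mem_ofPred_eq, mem_iInter, mem_union, mem_compl_iff]
      refine forall_congr' fun s => ?_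
      constructor
      · intro h
        rcases le_or_gt y.2 s with h3 | h3
        · exact Or.inl h3
        · exact Or.inr (h h3)
      · rintro (h | h) h3
        · exact absurd h3 (not_lt.2 h)
        · exact h
    rw [e2]
    refine isClosed_iInter fun s => IsClosed.union ?_ ?_
    · exact isClosed_le continuous_snd continuous_const
    · exact isOpen_interior.isClosed_compl.preimage
        ((continuous_eval_const s).comp continuous_fst)
  exact h1.inter h2

theorem inv_vis (A B : Set ℂ) : Inv (Vale.Agent.P167.H199.C.Vis A B) := by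
  intro x φ
  simp only [Vale.Agent.P167.H199.C.Vis, mem_ofPred_eq, reparam]
  constructor
  · rintro ⟨t, h1, h2⟩
    refine ⟨φ t, h1, fun s hs => ?_⟩
    have h3 := h2 (φ.symm s) ((φ.symm_apply_le).2 hs)
    simpa using h3
  · rintro ⟨t, h1, h2⟩
    refine ⟨φ.symm t, by simpa using h1, fun s hs => ?_⟩
    exact h2 (φ s) ((φ.le_symm_apply).1 hs)

theorem inv_visC (A B : Set ℂ) : Inv (VisC A B) := by
  intro x φ
  simp only [VisC, mem_ofPred_eq, reparam]
  constructor
  · rintro ⟨t, h1, h2⟩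
    refine ⟨φ t, h1, fun s hs => ?_⟩
    have h3 := h2 (φ.symm s) ((φ.symm_apply_lt).2 hs)
    simpa using h3
  · rintro ⟨t, h1, h2⟩
    refine ⟨φ.symm t, by simpa using h1, fun s hs => ?_⟩
    exact h2 (φ s) ((φ.lt_symm_apply).1 hs)

end Vale.Agent.P167.H437Q.C3
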