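import Vale.Agent.P167.H437Q.C3b

/-!
# P167, general `q`, route (C), block (C3): approximating domains on one side
-/

open MeasureTheory Set Filter Topology Metric
open scoped ENNReal NNReal

namespace Vale.Agent.P167.H437Q.C3

open Vale.Agent.P153.R2.C1 (reparam)
open Vale.Agent.P153.R2.Final (dom circ toC IsUniformizer)
open Vale.Agent.P167.E6 (edges IsInterface Approx pt)
open Vale.Agent.P167.QE (Cls wq)
open Vale.Agent.P167.H199.C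

/-- The marked domain `Φ` is approximated by marked domains which have approximations in `K` for all
sequences of meshes. -/
def PolyAt (K : Cls) (Φ : (ℝ × ℝ) ≃ₜ (ℝ × ℝ)) : Prop := ∀ ε > 0,
  ∃ Φ' : (ℝ × ℝ) ≃ₜ (ℝ × ℝ), (∀ t, dist (toC (Φ' (circ t))) (toC (Φ (circ t))) < ε) ∧
    ∀ δ : ℕ → ℝ, (∀ n, 0 < δ n) → Tendsto δ atTop (𝓝 0) →
      ∃ (N k : ℕ → ℕ) (p : ∀ n, ZMod (N n) → ℤ × ℤ) (S : ℕ → Finset (ℤ × ℤ)),
        Approx Φ' δ N k p S ∧ K Φ' δ N k p S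

theorem polyAt_of {K : Cls} (h : S_poly K) {Φ : (ℝ × ℝ) ≃ₜ (ℝ × ℝ)} (hΦ : HasApx Φ) :
    PolyAt K Φ := h Φ hΦ

theorem continuous_toC : Continuous toC := by
  have h : toC = fun z : ℝ × ℝ => (z.1 : ℂ) + z.2 * Complex.I := by
    funext z
    apply Complex.ext <;> simp [toC]
  rw [h]
  fun_prop

theorem shift_apply (Φ : (ℝ × ℝ) ≃ₜ (ℝ × ℝ)) (r : ℝ) (z : ℝ × ℝ) :
    shift Φ r z = Φ (z + (0, r)) := rfl

/-- `shift Φ r` is close to `Φ` for small `r`. -/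
theorem shift_near (Φ : (ℝ × ℝ) ≃ₜ (ℝ × ℝ)) {ε : ℝ} (hε : 0 < ε) : ∃ r₀ > 0, ∀ r : ℝ, |r| ≤ r₀ →
    ∀ t, dist (toC (shift Φ r (circ t))) (toC (Φ (circ t))) < ε := by
  have h1 : UniformContinuousOn (fun z => toC (Φ z)) (closedBall (0 : ℝ × ℝ) 3) :=
    (isCompact_closedBall _ _).uniformContinuousOn_of_continuous
      (continuous_toC.comp Φ.continuous).continuousOn
  obtain ⟨δ, hδ, h2⟩ := Metric.uniformContinuousOn_iff.1 h1 ε hε
  have hc : ∀ t, ‖circ t‖ ≤ 1 := fun t => by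
    rw [Prod.norm_def, sup_le_iff]
    exact ⟨Real.abs_cos_le_one t, Real.abs_sin_le_one t⟩
  refine ⟨min (δ / 2) 1, by positivity, fun r hr t => ?_⟩
  have h3 : |r| ≤ 1 := hr.trans (min_le_right _ _)
  have h4 : |r| < δ := lt_of_le_of_lt (hr.trans (min_le_left _ _)) (by linarith)
  have h5 : ‖((0, r) : ℝ × ℝ)‖ = |r| := by
    rw [Prod.norm_def]
    simp
  rw [shift_apply]
  refine h2 _ ?_ _ ?_ ?_
  · rw [mem_closedBall_zero_iff]
    have := norm_add_le (circ t) (0, r)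
    have := hc t
    linarith
  · rw [mem_closedBall_zero_iff]
    have := hc t
    linarith
  · rw [dist_eq_norm, add_sub_cancel_left, h5]
    exact h4

theorem close_mono {Φ : (ℝ × ℝ) ≃ₜ (ℝ × ℝ)} {ε ε' δ : ℝ} {N k : ℕ} {p : ZMod N → ℤ × ℤ}
    {S : Finset (ℤ × ℤ)} (h : Close Φ ε δ k p S) (hε : ε ≤ ε') : Close Φ ε' δ k p S := by
  obtain ⟨h1, h2, s, h3, h4, h5, h6, h7⟩ := h
  exact ⟨h1, h2.trans_le hε, s, h3, h4, h5, h6, fun i hi t ht => (h7 i hi t ht).trans_le hε⟩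

/-- The approximations of a domain close to `Φ` are eventually close to `Φ`. -/
theorem close_of_approx {Φ Φ' : (ℝ × ℝ) ≃ₜ (ℝ × ℝ)} {η ε : ℝ} (hε : 0 < ε) (hη : η < ε)
    (h : ∀ t, dist (toC (Φ' (circ t))) (toC (Φ (circ t))) ≤ η) {δ : ℕ → ℝ} {N k : ℕ → ℕ}
    {p : ∀ n, ZMod (N n) → ℤ × ℤ} {S : ℕ → Finset (ℤ × ℤ)} (hA : Approx Φ' δ N k p S) :
    ∀ᶠ n in atTop, Close Φ ε (δ n) (k n) (p n) (S n) := by
  obtain ⟨h1, h2, h3⟩ := hA
  filter_upwards [h2.eventually_lt_const hε, h3 (ε - η) (by linarith)] with n hn hs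
  obtain ⟨s, a1, a2, a3, a4, a5⟩ := hs
  refine ⟨h1 n, hn, s, a1, a2, a3, a4, fun i hi t ht => ?_⟩
  calc dist ((δ n : ℂ) * pt (p n i)) (toC (Φ (circ t)))
      ≤ dist ((δ n : ℂ) * pt (p n i)) (toC (Φ' (circ t))) +
        dist (toC (Φ' (circ t))) (toC (Φ (circ t))) := dist_triangle _ _ _
    _ < ε - η + η := by
        have := a5 i hi t ht
        have := h t
        linarith
    _ = ε := by ring

/-- The curves of two domains with close uniformizers are close. -/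
theorem curve_close {κ : ℝ} {Ω : Type} [MeasurableSpace Ω] {P : Measure Ω} {γ : Ω → ℝ → ℂ}
    (hγ : Vale.Agent.P164.IsSLE κ P γ) {Φ Φ' : (ℝ × ℝ) ≃ₜ (ℝ × ℝ)} {ψ ψ' : ℂ → ℂ}
    {G G' : Ω → C(unitInterval, ℂ)} (hG : IsG Φ ψ P γ G) (hG' : IsG Φ' ψ' P γ G') {ε : ℝ}
    (hε : 0 ≤ ε) (h : ∀ z : ℂ, 0 ≤ z.im → dist (ψ z) (ψ' z) ≤ ε) :
    ∀ᵐ ω ∂P, dist (G' ω) (G ω) ≤ ε := by
  obtain ⟨B, -, hB⟩ := hγ
  filter_upwards [hB, hG.1, hG'.1] with ω h1 h2 h3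
  rw [ContinuousMap.dist_le hε]
  have hcl : IsClosed {t : unitInterval | dist (G' ω t) (G ω t) ≤ ε} :=
    isClosed_le ((G' ω).continuous.dist (G ω).continuous) continuous_const
  have hsub : Iio (1 : unitInterval) ⊆ {t : unitInterval | dist (G' ω t) (G ω t) ≤ ε} := by
    intro t ht
    have ht' : (t : ℝ) < 1 := ht
    simp only [mem_ofPred_eq]
    rw [h2.2 t ht', h3.2 t ht', dist_comm]
    refine h _ (h1.im_nonneg _ ?_)
    exact div_nonneg t.2.1 (by linarith)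
  have h4 := closure_minimal hsub hcl
  rw [closure_Iio' ⟨0, by simp⟩] at h4
  exact fun t => h4 (show t ≤ 1 from le_top)

theorem mb_of_isG {Φ : (ℝ × ℝ) ≃ₜ (ℝ × ℝ)} {ψ : ℂ → ℂ} {Ω : Type} [MeasurableSpace Ω]
    {P : Measure Ω} {γ : Ω → ℝ → ℂ} {G : Ω → C(unitInterval, ℂ)} (hG : IsG Φ ψ P γ G) : Mb P G :=
  fun F hF => hG.2 F hF.cont

/-- Test functions are invariant in the sense of `ConvTo`. -/
theorem Tst.inv' {F : Crv → ℝ} (hF : Tst F) (x : Crv) (σ : C(unitInterval, unitInterval))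
    (h1 : StrictMono σ) (h2 : Function.Surjective σ) : F (x.comp σ) = F x := by
  have h := hF.inv x (StrictMono.orderIsoOfSurjective σ h1 h2)
  rw [← h]
  congr 1

theorem mean_mono {q : ℝ} (hq : 0 < q) {N : ℕ} (p : ZMod N → ℤ × ℤ) (k : ℕ) (S : Finset (ℤ × ℤ))
    {F G : Finset (Sym2 (ℤ × ℤ)) → ℝ} (h : ∀ A ⊆ edges S, F A ≤ G A) :
    Final.mean q p k S F ≤ Final.mean q p k S G := by
  have hw : ∀ A, 0 ≤ Final.weight q p k S A := fun A => (QE.wq_pos hq _ p k S A).le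
  unfold Final.mean
  refine div_le_div_of_nonneg_right (Finset.sum_le_sum fun A hA => ?_)
    (Finset.sum_nonneg fun A _ => hw A)
  exact mul_le_mul_of_nonneg_left (h A (Finset.mem_powerset.1 hA)) (hw A)

/-- A family of positive numbers indexed by `Fin m` has a positive lower bound. -/
theorem pos_min {m : ℕ} {f : Fin m → ℝ} (hf : ∀ j, 0 < f j) : ∃ r > 0, ∀ j, r ≤ f j := by
  have h : ∀ᶠ r : ℝ in 𝓝[>] 0, ∀ j, r ≤ f j := by
    rw [eventually_all]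
    intro j
    exact (eventually_nhdsWithin_of_eventually_nhds ((eventually_lt_nhds (hf j)).mono
      fun r hr => hr.le))
  obtain ⟨r, hr, h0⟩ := (h.and self_mem_nhdsWithin).exists
  exact ⟨r, h0, hr⟩

/-- **The domains on one side of `Φ`**: approximations of marked domains close to `shift Φ (σ r)`
whose interfaces converge to a curve close to `G`. -/
theorem side {K : Cls} {q κ : ℝ} (hst : S_stab) {Ω : Type} [MeasurableSpace Ω] {P : Measure Ω}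
    {γ : Ω → ℝ → ℂ} (hCL : CL K κ (wq q) P γ) {Φ : (ℝ × ℝ) ≃ₜ (ℝ × ℝ)} {ψ : ℂ → ℂ}
    (hψ : IsUniformizer Φ ψ) {G : Ω → C(unitInterval, ℂ)} (hG : IsG Φ ψ P γ G)
    (hp : ∃ r₀ > 0, ∀ r : ℝ, |r| ≤ r₀ → PolyAt K (shift Φ r)) {σ : ℝ} (hσ : |σ| = 1)
    {δ : ℕ → ℝ} (hδ : ∀ n, 0 < δ n) (hδ0 : Tendsto δ atTop (𝓝 0)) {r₀ : ℝ} (hr₀ : 0 < r₀)
    {E : ℝ → ℝ} (hE : ∀ r, 0 < r → r ≤ r₀ → 0 < E r) {ε : ℝ} (hε : 0 < ε) :
    ∃ r, 0 < r ∧ r ≤ r₀ ∧ ∃ (N k : ℕ → ℕ) (p : ∀ n, ZMod (N n) → ℤ × ℤ)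
      (S : ℕ → Finset (ℤ × ℤ)) (c : ∀ _ : ℕ, Finset (Sym2 (ℤ × ℤ)) → Crv)
      (G' : Ω → Crv),
      (∀ᶠ n in atTop, Close (shift Φ (σ * r)) (E r) (δ n) (k n) (p n) (S n)) ∧
      (∀ n, ∀ A ⊆ edges (S n), IsInterface (p n) (k n) (δ n) A (c n A)) ∧ Mb P G' ∧
      Lm (fun n F => Final.mean q (p n) (k n) (S n) fun X => F (c n X)) P G' ∧
      ∀ᵐ ω ∂P, dist (G' ω) (G ω) ≤ ε := by
  obtain ⟨r₁, hr₁, hp⟩ := hp
  set ρ : ℕ → ℝ := fun i => min r₀ r₁ * (1 / ((i : ℝ) + 1)) with hρ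
  have hm : 0 < min r₀ r₁ := lt_min hr₀ hr₁
  have hρ0 : ∀ i, 0 < ρ i := fun i => mul_pos hm (rad_pos i)
  have hρ1 : ∀ i, ρ i ≤ min r₀ r₁ := fun i => by
    have : (1 : ℝ) / ((i : ℝ) + 1) ≤ 1 := by
      rw [div_le_one (by positivity)]
      linarith [Nat.cast_nonneg (α := ℝ) i]
    exact mul_le_of_le_one_right hm.le this
  have hρt : Tendsto ρ atTop (𝓝 0) := by
    have := (tendsto_one_div_add_atTop_nhds_zero_nat (𝕜 := ℝ)).const_mul (min r₀ r₁)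
    simpa [hρ] using this
  have habs : ∀ i, |σ * ρ i| = ρ i := fun i => by
    rw [abs_mul, hσ, one_mul, abs_of_pos (hρ0 i)]
  have hE' : ∀ i, 0 < E (ρ i) := fun i => hE _ (hρ0 i) ((hρ1 i).trans (min_le_left _ _))
  have hpp : ∀ i : ℕ, ∃ Φ' : (ℝ × ℝ) ≃ₜ (ℝ × ℝ), (∀ t, dist (toC (Φ' (circ t)))
      (toC (shift Φ (σ * ρ i) (circ t))) < min (E (ρ i)) (1 / ((i : ℝ) + 1)) / 2) ∧
    ∀ δ : ℕ → ℝ, (∀ n, 0 < δ n) → Tendsto δ atTop (𝓝 0) →
      ∃ (N k : ℕ → ℕ) (p : ∀ n, ZMod (N n) → ℤ × ℤ) (S : ℕ → Finset (ℤ × ℤ)),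
        Approx Φ' δ N k p S ∧ K Φ' δ N k p S := fun i =>
    hp (σ * ρ i) ((habs i).le.trans ((hρ1 i).trans (min_le_right _ _))) _
      (half_pos (lt_min (hE' i) (rad_pos i)))
  choose Φ' h1 h2 using hpp
  have hconv : ∀ η > 0, ∀ᶠ i in atTop, ∀ t,
      dist (toC (Φ' i (circ t))) (toC (Φ (circ t))) < η := by
    intro η hη
    obtain ⟨r₂, hr₂, h3⟩ := shift_near Φ (half_pos hη)
    filter_upwards [hρt.eventually_lt_const hr₂,
      (tendsto_one_div_add_atTop_nhds_zero_nat (𝕜 := ℝ)).eventually_lt_const hη] with i hi hi'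
    intro t
    have a1 := h1 i t
    have a2 := h3 (σ * ρ i) ((habs i).le.trans hi.le) t
    have a3 := min_le_right (E (ρ i)) (1 / ((i : ℝ) + 1))
    have a4 := dist_triangle (toC (Φ' i (circ t))) (toC (shift Φ (σ * ρ i) (circ t)))
      (toC (Φ (circ t)))
    linarith
  obtain ⟨ψn, hu, ht⟩ := hst Φ ψ hψ Φ' hconv
  obtain ⟨i, hi⟩ := (Metric.tendstoUniformlyOn_iff.1 ht ε hε).exists
  obtain ⟨G', hG', h4⟩ := (hCL.2 (Φ' i)).2 (ψn i) (hu i)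
  obtain ⟨N, k, p, S, hA, hK⟩ := h2 i δ hδ hδ0
  obtain ⟨hex, hcv⟩ := h4 δ N k p S hA
  classical
  set c : ∀ _ : ℕ, Finset (Sym2 (ℤ × ℤ)) → Crv := fun n A =>
    if h : A ⊆ edges (S n) then Classical.choose (hex n A h) else ContinuousMap.const _ 0 with hc
  have hci : ∀ n, ∀ A ⊆ edges (S n), IsInterface (p n) (k n) (δ n) A (c n A) := by
    intro n A hA'
    simp only [hc, dif_pos hA']
    exact Classical.choose_spec (hex n A hA')
  refine ⟨ρ i, hρ0 i, (hρ1 i).trans (min_le_left _ _), N, k, p, S, c, G', ?_, hci,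
    mb_of_isG hG', ?_, ?_⟩
  · refine close_of_approx (hE' i) (η := E (ρ i) / 2) (by linarith [hE' i]) (fun t => ?_) hA
    have a1 := h1 i t
    have a3 := min_le_left (E (ρ i)) (1 / ((i : ℝ) + 1))
    linarith
  · intro F hF
    exact hcv hK c hci F hF.cont hF.bdd hF.inv'
  · exact curve_close hCL.1 hG hG' hε.le fun z hz => (hi z hz).le

end Vale.Agent.P167.H437Q.C3
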