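import Vale.Agent.P167.H452.BE.Defs
import Vale.Agent.P167.H208.ND.Red
import Vale.Agent.P167.H562.MAJ3

/-!
# P167, general `q`, block BETA: the deterministic part `S_DU`, upper bound and signs

Charges `θ / 2, θ / 2, - θ` in three rings around a flat free boundary point, `k = n`. The pieces which avoid
the rings have the weight `sin (θ - s) / sin θ` or `sin (2 θ + s) / sin (2 θ)`, `s` the charge of the rings which
they surround, with alternating signs in each class.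
-/

namespace Vale.Agent.P167.H437Q.Du

open Finset Relation Vale.Agent.P167.BR Vale.Agent.P167
open Vale.Agent.P167.QX (lo hi exists_xy lo_xy hi_xy wB XB)
open Vale.Agent.P167.QB (gB gB_cos Ard ard_lp wB_hx dlt XG sg_cases sg_xy sep_ard inn_xy)
open Vale.Agent.P167.H436.ND
open Vale.Agent.P167.H192.TA (Xc Pw)
open Vale.Agent.P167.H542.Q (cB cB_pos wR thB wR_thB phs_thB)
open Vale.Agent.P167.H562.QM (MajA)
open Vale.Agent.P167.H562.MAJ (Sm)
open Vale.Agent.P167.H562.SML (smf bd_G)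
open Vale.Agent.P167.H640.ND (mem_sites_Zg stay sep_zn)
open Vale.Agent.P167.H452.BE (ta XE R3 St Bad cb LkD LkP Fav S_DU)
open Vale.Agent.P167.H208.ND (Sj Sj_zero cls sL zn_ring rng_ring range_i mass_av mass_01 mass_lin
  mass_ring kr_sites ard_l sep_iff vz_iff dlt_zero wB_free pos_bd up_PU up_PV cls_blk blk_sum PU PV
  cls_iff cls_le a_mono trig_dp)

variable {D : Finset (ℤ × ℤ)} {ω : Cfg} {n : ℕ} {q : ZMod n → ℤ × ℤ} {A : Finset Ed}
  {l : ℕ} {θ : ℝ} {R : ℤ} {a : Fin 3 → ℤ} {M : ℝ} {f : Fin 3 → ℤ × ℤ → ℝ}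

/-! ### constants -/

/-- The constant `M`. -/
structure Md (θ M : ℝ) : Prop where
  h1 : 1 ≤ M
  cb : (cB θ)⁻¹ ≤ M
  s1 : 1 / Real.sin θ ≤ M
  s2 : 1 / Real.sin (2 * θ) ≤ M
  w1 : ∀ t, -θ ≤ t → t ≤ θ / 2 → M⁻¹ ≤ Real.cos (θ + t) / Real.cos θ
  w3 : ∀ t, -θ ≤ t → t ≤ θ / 2 → M⁻¹ ≤ Real.sin (θ - t) / Real.sin θ
  w4 : ∀ t, -θ ≤ t → t ≤ θ → M⁻¹ ≤ Real.sin (2 * θ + t) / Real.sin (2 * θ)

theorem exists_md (h0 : 0 < θ) (h1 : θ < Real.pi / 3) : ∃ M, Md θ M := by
  have hpi := Real.pi_pos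
  have hs : 0 < Real.sin θ := Real.sin_pos_of_pos_of_lt_pi h0 (by linarith)
  have hs2 : 0 < Real.sin (2 * θ) := Real.sin_pos_of_pos_of_lt_pi (by linarith) (by linarith)
  have hc : 0 < Real.cos θ := Real.cos_pos_of_mem_Ioo ⟨by linarith, by linarith⟩
  obtain ⟨c1, hc1, k1⟩ := pos_bd (g := fun t => Real.cos (θ + t) / Real.cos θ) (by fun_prop)
    (a := -θ) (b := θ / 2) fun t ht => div_pos (Real.cos_pos_of_mem_Ioo
      ⟨by linarith [ht.1], by linarith [ht.2]⟩) hc
  obtain ⟨c3, hc3, k3⟩ := pos_bd (g := fun t => Real.sin (θ - t) / Real.sin θ) (by fun_prop)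
    (a := -θ) (b := θ / 2) fun t ht => div_pos (Real.sin_pos_of_pos_of_lt_pi
      (by linarith [ht.2]) (by linarith [ht.1])) hs
  obtain ⟨c4, hc4, k4⟩ := pos_bd (g := fun t => Real.sin (2 * θ + t) / Real.sin (2 * θ))
    (by fun_prop) (a := -θ) (b := θ) fun t ht => div_pos (Real.sin_pos_of_pos_of_lt_pi
      (by linarith [ht.1]) (by linarith [ht.2])) hs2
  have hcb := cB_pos h0 h1.le
  obtain ⟨M, hM⟩ : ∃ M, M = 1 + (cB θ)⁻¹ + 1 / Real.sin θ + 1 / Real.sin (2 * θ) +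
    c1⁻¹ + c3⁻¹ + c4⁻¹ := ⟨_, rfl⟩
  have p1 : 0 < (cB θ)⁻¹ := inv_pos.2 hcb
  have p2 : 0 < 1 / Real.sin θ := by positivity
  have p3 : 0 < 1 / Real.sin (2 * θ) := by positivity
  have p4 := inv_pos.2 hc1
  have p6 := inv_pos.2 hc3
  have p7 := inv_pos.2 hc4
  refine ⟨M, by linarith, by linarith, by linarith, by linarith, fun t ht ht' => ?_,
    fun t ht ht' => ?_, fun t ht ht' => ?_⟩
  · exact (inv_anti₀ (by positivity) (by linarith : c1⁻¹ ≤ M)).trans (by
      rw [inv_inv]; exact k1 t ⟨ht, ht'⟩)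
  · exact (inv_anti₀ (by positivity) (by linarith : c3⁻¹ ≤ M)).trans (by
      rw [inv_inv]; exact k3 t ⟨ht, ht'⟩)
  · exact (inv_anti₀ (by positivity) (by linarith : c4⁻¹ ≤ M)).trans (by
      rw [inv_inv]; exact k4 t ⟨ht, ht'⟩)

/-- A product with two values, almost balanced: upper bound. -/
theorem two_up {ι : Type*} (T : Finset ι) (s : ι → ℤ) (hs : ∀ i ∈ T, s i = 1 ∨ s i = -1)
    (h : |∑ i ∈ T, s i| ≤ 1) {d p M : ℝ} (hd : 0 ≤ d) (hp : 0 ≤ p) (hdp : d * p ≤ 1)
    (hdM : d ≤ M) (hpM : p ≤ M) (hM : 1 ≤ M) : ∏ i ∈ T, (if s i = 1 then d else p) ≤ M := by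
  classical
  have e : ∏ i ∈ T, (if s i = 1 then d else p) =
      d ^ (T.filter (fun i => s i = 1)).card * p ^ (T.filter (fun i => ¬ s i = 1)).card := by
    rw [prod_ite, prod_const, prod_const]
  have e2 : ∑ i ∈ T, s i = (T.filter (fun i => s i = 1)).card -
      (T.filter (fun i => ¬ s i = 1)).card := by
    rw [← sum_filter_add_sum_filter_not T (fun i => s i = 1)]
    rw [sum_congr rfl (fun i hi => (mem_filter.1 hi).2),
      sum_congr (s₁ := T.filter fun i => ¬ s i = 1) rfl (fun i hi =>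
        ((hs i (mem_filter.1 hi).1).resolve_left (mem_filter.1 hi).2 : s i = -1))]
    simp only [sum_const, nsmul_eq_mul]
    ring
  rw [e]
  obtain ⟨N, hN⟩ : ∃ N, N = (T.filter (fun i => s i = 1)).card := ⟨_, rfl⟩
  obtain ⟨K, hK⟩ : ∃ K, K = (T.filter (fun i => ¬ s i = 1)).card := ⟨_, rfl⟩
  rw [← hN, ← hK] at e2 ⊢
  rw [e2, abs_le] at h
  have hb : ∀ j : ℕ, (d * p) ^ j ≤ 1 := fun j => pow_le_one₀ (by positivity) hdp
  have hcase : K = N ∨ N = K + 1 ∨ K = N + 1 := by omega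
  rcases hcase with h1 | h1 | h1
  · have h2 : d ^ N * p ^ K = (d * p) ^ N := by rw [h1, mul_pow]
    rw [h2]; exact (hb N).trans hM
  · have h2 : d ^ N * p ^ K = (d * p) ^ K * d := by rw [h1, mul_pow, pow_succ]; ring
    rw [h2]
    exact (mul_le_of_le_one_left hd (hb K)).trans hdM
  · have h2 : d ^ N * p ^ K = (d * p) ^ N * p := by rw [h1, mul_pow, pow_succ]; ring
    rw [h2]
    exact (mul_le_of_le_one_left hp (hb N)).trans hpM

theorem dp_le (h0 : 0 < θ) (h1 : θ < Real.pi / 3) {s : ℝ} (hs0 : 0 ≤ s) (hs1 : s ≤ θ) :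
    Real.sin (θ - s) / Real.sin θ * (Real.sin (2 * θ + s) / Real.sin (2 * θ)) ≤ 1 := by
  have hpi := Real.pi_pos
  have hs : 0 < Real.sin θ := Real.sin_pos_of_pos_of_lt_pi h0 (by linarith)
  have hs2 : 0 < Real.sin (2 * θ) := Real.sin_pos_of_pos_of_lt_pi (by linarith) (by linarith)
  have h := trig_dp θ (-s)
  rw [← sub_eq_add_neg, sub_neg_eq_add, sub_neg_eq_add, Real.sin_neg] at h
  rw [div_mul_div_comm, h, div_le_one (by positivity)]
  have h2 : 0 ≤ Real.sin s := Real.sin_nonneg_of_nonneg_of_le_pi hs0 (by linarith)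
  have h3 : 0 ≤ Real.sin (θ + s) := Real.sin_nonneg_of_nonneg_of_le_pi (by linarith) (by linarith)
  have := mul_nonneg h2 h3
  linarith

/-! ### the charges -/

theorem sj_val (θ : ℝ) : Sj (ta θ) 0 0 = 0 ∧ Sj (ta θ) 0 1 = θ / 2 ∧ Sj (ta θ) 0 2 = θ ∧
    Sj (ta θ) 0 3 = 0 := by
  unfold Sj ta
  refine ⟨?_, ?_, ?_, ?_⟩
  · simp
  · simp [Fin.sum_univ_three]
  · simp [Fin.sum_univ_three]
  · simp [Fin.sum_univ_three]

theorem sj_bd (h0 : 0 < θ) {j : ℕ} (hj : j ≤ 3) : 0 ≤ Sj (ta θ) 0 j ∧ Sj (ta θ) 0 j ≤ θ := by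
  obtain ⟨e0, e1, e2, e3⟩ := sj_val θ
  have : j = 0 ∨ j = 1 ∨ j = 2 ∨ j = 3 := by omega
  rcases this with rfl | rfl | rfl | rfl
  · rw [e0]; constructor <;> linarith
  · rw [e1]; constructor <;> linarith
  · rw [e2]; constructor <;> linarith
  · rw [e3]; constructor <;> linarith

theorem mass_zero (A : Finset Ed) : mass D (q 0) 0 A = 0 := by
  unfold mass
  refine sum_eq_zero fun z _ => ?_
  simp

theorem mass_t (A : Finset Ed) : mass D (q 0) (Ft (ta θ) f 0) A =
    θ / 2 * mass D (q 0) (f 0) A + θ / 2 * mass D (q 0) (f 1) A - θ * mass D (q 0) (f 2) A := by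
  rw [mass_lin, mass_zero, Fin.sum_univ_three]
  simp only [ta, Matrix.cons_val_zero, Matrix.cons_val_one, Matrix.cons_val_two, Matrix.head_cons,
    Matrix.tail_cons, Matrix.cons_val]
  ring

/-! ### the avoiding pieces -/

section

variable (hw : Win q D l R) (ha : Scl 4000 4 R a) (hn : (l : ℤ) + R ≤ n)
  (h0 : 0 < θ) (h1 : θ < Real.pi / 3)
  (hfs : ∀ i z, f i z ≠ 0 → z ∈ Kr (q l) (a i)) (hf1 : ∀ i, ∑ᶠ z, f i z = 1)

include hw in
theorem hi_lt (hA : A ∈ pcs ω D) (hl : ¬ IsLp D A) : hi q A < n := by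
  obtain ⟨x, y, h⟩ := exists_xy hw.poly hw.enc hA hl
  rw [hi_xy hw.poly hw.enc hA h]
  have := h.1
  have := h.2.1
  omega

include hw ha hn h0 h1 hfs hf1

/-- The weight of a piece which avoids the rings. -/
theorem av_w (hA : A ∈ pcs ω D) (hV : ∀ i, ¬ Vz (Zr (q l) (a i)) A) :
    wB θ (gB θ) q D n A (mass D (q 0) (Ft (ta θ) f 0) A) = (open Classical in
      if Ard q l A then (if QB.sg q A = 1 then
          Real.sin (θ - Sj (ta θ) 0 (cls q (sL l a) A)) / Real.sin θ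
        else Real.sin (2 * θ + Sj (ta θ) 0 (cls q (sL l a) A)) / Real.sin (2 * θ)) else 1) := by
  classical
  have hpi := Real.pi_pos
  have hs : 0 < Real.sin θ := Real.sin_pos_of_pos_of_lt_pi h0 (by linarith)
  have hc : 0 < Real.cos θ := Real.cos_pos_of_mem_Ioo ⟨by linarith, by linarith⟩
  rw [← dlt_zero (q l), mass_av hw ha hn le_rfl hfs hf1 hA hV]
  by_cases hl : Ard q l A
  · have hlp : ¬ IsLp D A := fun h => ard_lp hw.poly hw.enc hA h hl
    rw [if_pos hl, if_pos hl, wB_free hw.poly hw.enc hA hlp (hi_lt hw hA hlp)]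
  · rw [if_neg hl, if_neg hl, wB_hx hs hc]

open Classical in
/-- The product over the avoiding pieces is between `0` and `M ^ 4`. -/
theorem av_up (hM : Md θ M) :
    0 ≤ ∏ A ∈ (pcs ω D).filter (fun A => ∀ i, ¬ Vz (Zr (q l) (a i)) A),
      wB θ (gB θ) q D n A (mass D (q 0) (Ft (ta θ) f 0) A) ∧
    ∏ A ∈ (pcs ω D).filter (fun A => ∀ i, ¬ Vz (Zr (q l) (a i)) A),
      wB θ (gB θ) q D n A (mass D (q 0) (Ft (ta θ) f 0) A) ≤ M ^ 4 := by
  have hpi := Real.pi_pos
  have hs : 0 < Real.sin θ := Real.sin_pos_of_pos_of_lt_pi h0 (by linarith)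
  have hs2 : 0 < Real.sin (2 * θ) := Real.sin_pos_of_pos_of_lt_pi (by linarith) (by linarith)
  have hM0 : 0 < M := by linarith [hM.h1]
  have hZ := zn_ring hw ha hn le_rfl
  set av := (pcs ω D).filter (fun A => ∀ i, ¬ Vz (Zr (q l) (a i)) A) with hav
  -- the strands around `q l`
  have red : ∏ A ∈ av, wB θ (gB θ) q D n A (mass D (q 0) (Ft (ta θ) f 0) A) =
      ∏ j ∈ range (3 + 1), ∏ A ∈ (pcs ω D).filter (fun A => PU q l (fun i => Zr (q l) (a i)) (sL l a) j A ∧
        ¬ PV q l (fun i => Zr (q l) (a i)) (sL l a) j A),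
          if QB.sg q A = 1 then Real.sin (θ - Sj (ta θ) 0 j) / Real.sin θ
          else Real.sin (2 * θ + Sj (ta θ) 0 j) / Real.sin (2 * θ) := by
    rw [← prod_filter_mul_prod_filter_not av (fun A => Ard q l A)]
    rw [prod_eq_one (s := av.filter fun A => ¬ Ard q l A) fun A hA => ?_, mul_one]
    · rw [← prod_fiberwise_of_maps_to (t := range (3 + 1)) (g := cls q (sL l a)) (fun A _ => by
        rw [mem_range]; exact Nat.lt_succ_of_le (cls_le A))]
      refine prod_congr rfl fun j hj => ?_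
      rw [mem_range] at hj
      have hset : ((av.filter fun A => Ard q l A).filter fun A => cls q (sL l a) A = j) =
          (pcs ω D).filter (fun A => PU q l (fun i => Zr (q l) (a i)) (sL l a) j A ∧
            ¬ PV q l (fun i => Zr (q l) (a i)) (sL l a) j A) := by
        ext A
        simp only [hav, mem_filter]
        rw [← cls_blk hZ j (by omega)]
        tauto
      rw [← hset]
      refine prod_congr rfl fun A hA => ?_
      simp only [hav, mem_filter] at hA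
      obtain ⟨⟨⟨hA1, hA2⟩, hA3⟩, hA4⟩ := hA
      rw [av_w hw ha hn h0 h1 hfs hf1 hA1 hA2, if_pos hA3, hA4]
    · simp only [hav, mem_filter] at hA
      rw [av_w hw ha hn h0 h1 hfs hf1 hA.1.1 hA.1.2, if_neg hA.2]
  rw [red]
  have hblk : ∀ j ∈ range (3 + 1), 0 ≤ (∏ A ∈ (pcs ω D).filter (fun A =>
      PU q l (fun i => Zr (q l) (a i)) (sL l a) j A ∧
        ¬ PV q l (fun i => Zr (q l) (a i)) (sL l a) j A),
          if QB.sg q A = 1 then Real.sin (θ - Sj (ta θ) 0 j) / Real.sin θ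
          else Real.sin (2 * θ + Sj (ta θ) 0 j) / Real.sin (2 * θ)) ∧
      (∏ A ∈ (pcs ω D).filter (fun A =>
      PU q l (fun i => Zr (q l) (a i)) (sL l a) j A ∧
        ¬ PV q l (fun i => Zr (q l) (a i)) (sL l a) j A),
          if QB.sg q A = 1 then Real.sin (θ - Sj (ta θ) 0 j) / Real.sin θ
          else Real.sin (2 * θ + Sj (ta θ) 0 j) / Real.sin (2 * θ)) ≤ M := by
    intro j hj
    rw [mem_range] at hj
    obtain ⟨b0, b1⟩ := sj_bd h0 (j := j) (by omega)
    have hd : 0 ≤ Real.sin (θ - Sj (ta θ) 0 j) / Real.sin θ := div_nonneg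
      (Real.sin_nonneg_of_nonneg_of_le_pi (by linarith) (by linarith)) hs.le
    have hp : 0 ≤ Real.sin (2 * θ + Sj (ta θ) 0 j) / Real.sin (2 * θ) := div_nonneg
      (Real.sin_nonneg_of_nonneg_of_le_pi (by linarith) (by linarith)) hs2.le
    refine ⟨prod_nonneg fun A _ => ?_, ?_⟩
    · split_ifs
      · exact hd
      · exact hp
    · exact two_up _ _ (fun A _ => sg_cases A)
        (blk_sum hw.poly hw.enc hw.l1.le (up_PU hw.poly hw.enc hZ (ω := ω) j)
          (up_PV hw.poly hw.enc hZ (ω := ω) j)) hd hp (dp_le h0 h1 b0 b1)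
        ((div_le_div_of_nonneg_right (Real.sin_le_one _) hs.le).trans hM.s1)
        ((div_le_div_of_nonneg_right (Real.sin_le_one _) hs2.le).trans hM.s2) hM.h1
  refine ⟨prod_nonneg fun j hj => (hblk j hj).1, ?_⟩
  calc _ ≤ ∏ _j ∈ range (3 + 1), M := prod_le_prod (fun j hj => (hblk j hj).1) fun j hj => (hblk j hj).2
    _ = M ^ 4 := by rw [prod_const, card_range]

/-- **A nonzero value excludes the strands of class two with the sign `1`.** -/
theorem st_of_ne (hX : XE θ q D f ω ≠ 0) : ω ∈ St q D l a := by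
  classical
  intro A hA hV hc
  by_contra hsg
  have hsg1 : QB.sg q A = 1 := (sg_cases A).resolve_right hsg
  apply hX
  have hV' : ∀ i, ¬ Vz (Zr (q l) (a i)) A := fun i hi => hV (vz_iff.2 ⟨i, hi⟩)
  have hcls : cls q (sL l a) A = 2 := by
    rw [← hc]
    unfold cls clz
    refine congrArg Finset.card ?_
    refine filter_congr fun i _ => ?_
    refine (sep_iff hw.poly hw.enc (zn_ring hw ha hn le_rfl) i hA (hV' i) ?_).symm
    have h1 := range_i hw ha i
    show zf (q l) a i ∈ sites (Zg (q l) (a i) (2 * a i))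
    rw [mem_sites_Zg (by omega) (by omega)]
    unfold zf
    simp only
    omega
  have hl : Ard q l A := by
    by_contra hl
    have h2 : cls q (sL l a) A = 0 := by
      unfold cls
      rw [card_eq_zero, filter_eq_empty_iff]
      intro i _ h3
      exact hl (ard_l hw.poly hw.enc (zn_ring hw ha hn le_rfl) i hA (hV' i) h3)
    omega
  show ∏ A ∈ pcs ω D, _ = 0
  refine prod_eq_zero hA ?_
  rw [av_w hw ha hn h0 h1 hfs hf1 hA hV', if_pos hl, if_pos hsg1, hcls, (sj_val θ).2.2.1, sub_self,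
    Real.sin_zero, zero_div]

end

end Vale.Agent.P167.H437Q.Du
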