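import Vale.Agent.P167.H437Q.Du1

/-!
# P167, general `q`, block BETA: the deterministic part `S_DU`, visiting pieces and the favourable event
-/

namespace Vale.Agent.P167.H437Q.Du

open Finset Relation Vale.Agent.P167.BR Vale.Agent.P167
open Vale.Agent.P145.FB (PStep)
open Vale.Agent.P167.H718 (side_const)
open Vale.Agent.P167.QX (lo hi exists_xy lo_xy hi_xy wB XB)
open Vale.Agent.P167.QB (gB gB_cos Ard ard_lp wB_hx dlt XG sg_cases sg_xy sep_ard inn_xy ard_xy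
  flat_side)
open Vale.Agent.P167.H436.ND
open Vale.Agent.P167.H192.TA (Xc Pw sc_par)
open Vale.Agent.P167.H192.ND (xc_piece site_in site_out)
open Vale.Agent.P167.H542.Q (cB cB_pos wR thB wR_thB phs_thB)
open Vale.Agent.P167.H562.QM (MajA)
open Vale.Agent.P167.H562.MAJ (Sm rect mem_rect econ_rect mem_sites_rect)
open Vale.Agent.P167.H562.SML (smf bd_G)
open Vale.Agent.P167.H632 (pr cs)
open Vale.Agent.P167.H640.ND (mem_sites_Zg stay sep_zn)
open Vale.Agent.P167.H452.BE (ta XE R3 St Bad cb LkD LkP Fav S_DU)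
open Vale.Agent.P167.H208.ND (Sj Sj_zero cls sL sL_eq zn_ring rng_ring range_i mass_av mass_01 mass_lin
  mass_ring kr_sites ard_l sep_iff vz_iff dlt_zero wB_free pos_bd cls_iff cls_le a_mono)

variable {D : Finset (ℤ × ℤ)} {ω : Cfg} {n : ℕ} {q : ZMod n → ℤ × ℤ} {A : Finset Ed}
  {l : ℕ} {θ : ℝ} {R : ℤ} {a : Fin 3 → ℤ} {M : ℝ} {f : Fin 3 → ℤ × ℤ → ℝ} {L1 : ℤ}

theorem sep_of_pot {s s' p : ℤ × ℤ} (h : ∀ u, PotD D A u → u s = u s') :
    Sep D A s p ↔ Sep D A s' p := by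
  constructor
  · rintro ⟨u, hu, h1⟩
    exact ⟨u, hu, by rwa [← h u hu]⟩
  · rintro ⟨u, hu, h1⟩
    exact ⟨u, hu, by rwa [h u hu]⟩

/-- A path of one colour is a path of steps. -/
theorem stp_of_pw {c : Bool} {s t : ℤ × ℤ} (h : Pw (cs c ω ∩ ↑D) s t)
    (hp : (s.1 + s.2) % 2 = pr c) : ReflTransGen (Stp ω D) s t := by
  have hx : ReflTransGen (Stp ω D) s t ∧ (t.1 + t.2) % 2 = pr c := by
    induction h with
    | refl => exact ⟨ReflTransGen.refl, hp⟩
    | @tail u v _ huv ih =>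
      obtain ⟨ih1, ih2⟩ := ih
      refine ⟨ih1.tail ?_, ?_⟩
      · cases c
        · right
          refine ⟨?_, huv.1, huv.2.1, ?_, huv.2.2.2⟩
          · rw [Int.even_iff, ih2]; simp [pr]
          · have h1 : ω (min u.1 v.1, min u.2 v.2) = false := huv.2.2.1
            show ¬ (ω (min u.1 v.1, min u.2 v.2) = true)
            rw [h1]; simp
        · left
          refine ⟨?_, huv.1, huv.2.1, huv.2.2.1, huv.2.2.2⟩
          rw [Int.even_iff, ih2]; simp [pr]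
      · obtain ⟨h1, h2, -⟩ := huv
        omega
  exact hx.1

section

variable (hw : Win q D l R) (ha : Scl 4000 4 R a) (hn : (l : ℤ) + R ≤ n)
  (h0 : 0 < θ) (h1 : θ < Real.pi / 3) (hf0 : ∀ i z, 0 ≤ f i z)
  (hfs : ∀ i z, f i z ≠ 0 → z ∈ Kr (q l) (a i)) (hf1 : ∀ i, ∑ᶠ z, f i z = 1)

include hw ha hn hfs hf1 in
/-- A loop which meets the mass of a ring visits the ring. -/
theorem lp_vis (hA : A ∈ pcs ω D) (hl : IsLp D A) (i : Fin 3) (h : 0 < mass D (q 0) (f i) A) :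
    Vz (Zr (q l) (a i)) A := by
  classical
  by_contra hV
  rw [mass_ring hw ha hn le_rfl i (hfs i) (hf1 i) hA hV, if_neg (ard_lp hw.poly hw.enc hA hl)] at h
  exact lt_irrefl _ h

include ha hw in
theorem zns_a : Zns R a (fun i => 2 * a i) := by
  refine ⟨fun i => ?_, fun i => ?_, fun i j hij => ?_, fun i => ?_⟩
  · have := range_i hw ha i; omega
  · have := range_i hw ha i; omega
  · have := range_i hw ha i
    have h2 := a_mono hw ha hij
    omega
  · have := range_i hw ha i; omega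

include hw ha in
/-- A piece which visits the rings `0` and `1` crosses the gap with both colours. -/
theorem cross01 (hA : A ∈ pcs ω D) (hv0 : Vz (Zr (q l) (a 0)) A) (hv1 : Vz (Zr (q l) (a 1)) A)
    (c : Bool) : ω ∈ Xc c (q l) (2 * a 0) (a 1) :=
  H192.ND.s_cross n q D l R hw 3 a (fun i => 2 * a i) (zns_a hw ha) ω A hA 0 1 rfl
    ⟨0, le_rfl, hv0⟩ ⟨1, le_rfl, hv1⟩ c

include hw ha hf0 hfs hf1 in
/-- The range of the mass. -/
theorem mass_rg (h0 : 0 < θ) (A : Finset Ed) : -θ ≤ mass D (q 0) (Ft (ta θ) f 0) A ∧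
    mass D (q 0) (Ft (ta θ) f 0) A ≤ θ ∧
    (mass D (q 0) (f 0) A ≤ 0 ∨ mass D (q 0) (f 1) A ≤ 0 →
      mass D (q 0) (Ft (ta θ) f 0) A ≤ θ / 2) := by
  have m0 := mass_01 hw ha 0 (hf0 0) (hfs 0) (hf1 0) A
  have m1 := mass_01 hw ha 1 (hf0 1) (hfs 1) (hf1 1) A
  have m2 := mass_01 hw ha 2 (hf0 2) (hfs 2) (hf1 2) A
  rw [mass_t]
  obtain ⟨x, hx⟩ : ∃ x, x = mass D (q 0) (f 0) A := ⟨_, rfl⟩
  obtain ⟨y, hy⟩ : ∃ y, y = mass D (q 0) (f 1) A := ⟨_, rfl⟩
  obtain ⟨z, hz⟩ : ∃ z, z = mass D (q 0) (f 2) A := ⟨_, rfl⟩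
  rw [← hx] at m0 ⊢
  rw [← hy] at m1 ⊢
  rw [← hz] at m2 ⊢
  refine ⟨by nlinarith, by nlinarith, ?_⟩
  rintro (h | h) <;> nlinarith

include hw ha hn h0 h1 hf0 hfs hf1 in
/-- **The weights are nonnegative.** -/
theorem w_nonneg (hb : ω ∉ Bad (q l) a) (hA : A ∈ pcs ω D) :
    0 ≤ wB θ (gB θ) q D n A (mass D (q 0) (Ft (ta θ) f 0) A) := by
  have hpi := Real.pi_pos
  have hs : 0 < Real.sin θ := Real.sin_pos_of_pos_of_lt_pi h0 (by linarith)
  have hs2 : 0 < Real.sin (2 * θ) := Real.sin_pos_of_pos_of_lt_pi (by linarith) (by linarith)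
  have hc : 0 < Real.cos θ := Real.cos_pos_of_mem_Ioo ⟨by linarith, by linarith⟩
  obtain ⟨r1, r2, r3⟩ := mass_rg hw ha hf0 hfs hf1 h0 A
  by_cases hl : IsLp D A
  · have h2 : mass D (q 0) (f 0) A ≤ 0 ∨ mass D (q 0) (f 1) A ≤ 0 := by
      by_contra hcon
      push Not at hcon
      have v0 := lp_vis hw ha hn hfs hf1 hA hl 0 hcon.1
      have v1 := lp_vis hw ha hn hfs hf1 hA hl 1 hcon.2
      exact hb ⟨cross01 hw ha hA v0 v1 true, cross01 hw ha hA v0 v1 false⟩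
    have h3 := r3 h2
    unfold wB
    rw [if_pos hl]
    exact div_nonneg (Real.cos_nonneg_of_mem_Icc ⟨by linarith, by linarith⟩) hc.le
  · rw [wB_free hw.poly hw.enc hA hl (hi_lt hw hA hl)]
    split_ifs
    · exact div_nonneg (Real.sin_nonneg_of_nonneg_of_le_pi (by linarith) (by linarith)) hs.le
    · exact div_nonneg (Real.sin_nonneg_of_nonneg_of_le_pi (by linarith) (by linarith)) hs2.le

/-! ### the favourable event -/

include hw in
/-- A foot in the flat piece. -/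
theorem foot_vis {r : ℤ} (hr : 1 ≤ r) (hrR : r ≤ R) {w : ℕ} (hwA : be q (w : ZMod n) ∈ A)
    (h2 : (l : ℤ) - r ≤ w) (h3 : (w : ℤ) < l + r) : Vz (hbox (q l) r) A := by
  obtain ⟨h5, h6⟩ := flat_side hw.poly hw.enc hw.flat (by omega) hw.l1 hw.off (i := w) (by omega)
    (by omega)
  refine ⟨_, hwA, ?_⟩
  rw [h6, ce_mem_eds, E2.face0, mem_hbox, h5]
  left
  simp only
  omega

include hw ha in
/-- A strand which visits the inner half box does not separate the far zone. -/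
theorem far1 (hL : 4 ≤ L1) (hLR : 2 * L1 * a 2 ≤ R)
    (h2 : ω ∉ Xc true (q l) (2 * a 2 + 2) (L1 * a 2 - 2)) (hA : A ∈ pcs ω D) (hl : ¬ IsLp D A)
    (hv : Vz (hbox (q l) (2 * a 2 + 2)) A) {w0 : ℤ × ℤ}
    (hw0 : w0 ∈ sites (Zg (q l) (L1 * a 2) (L1 * a 2 + a 1))) : ¬ Sep D A w0 (q 0) := by
  obtain ⟨k1, k2, k3, k4⟩ := range_i hw ha 1
  obtain ⟨k1', k2', k3', k4'⟩ := range_i hw ha 2
  have k5 := a_mono hw ha (show (1 : Fin 3) < 2 by decide)
  have k6 : 4 * a 2 ≤ L1 * a 2 := mul_le_mul_of_nonneg_right hL (by omega)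
  have k7 : 2 * L1 * a 2 = 2 * (L1 * a 2) := by ring
  rw [k7] at hLR
  obtain ⟨r1, hr1⟩ : ∃ r1, r1 = L1 * a 2 := ⟨_, rfl⟩
  rw [← hr1] at k6 hLR h2 hw0
  have hnv : ¬ Vz (Zg (q l) (r1 - 2) (r1 + a 1)) A := by
    rintro ⟨e', he', hz'⟩
    obtain ⟨e, he, hz⟩ := hv
    refine h2 (xc_piece hA (R := r1 - 2) (r := 2 * a 2 + 2) ?_ (by omega) he he' (fun c => ?_)
      (fun c => ?_) true)
    · exact hw.flat.mono (by omega)
    · exact site_in hz c
    · exact site_out hz' c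
  have h5 := stay hw.flat (by omega) (by omega) (by omega) hA hnv (hv.mono (hbox_mono (by omega)))
  obtain ⟨x, y, h, g1, g2, g3, g4, -⟩ := inn_xy hw.poly hw.enc
    (hw.flat.mono (by omega : r1 - 2 ≤ R)) (by omega) hw.l1
    (fun h' => hw.off (sites_mono (hbox_mono (by omega)) h')) hA (fun d hd => (h5 d hd).1)
    (fun d hd => (h5 d hd).2) hl
  have hV2 : ¬ Vz (Zg (q l) r1 (r1 + a 1)) A := fun ⟨e, he, hz⟩ => hnv ⟨e, he, eds_mono (fun v hv => by
    rw [mem_Zg] at hv ⊢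
    omega) hz⟩
  rw [sep_zn hw (by omega) (by omega) (by omega) hA hV2 hw0]
  have hlo := lo_xy hw.poly hw.enc hA h
  rintro ⟨g5, -⟩
  rcases le_total x y with h7 | h7
  · rw [min_eq_left h7] at hlo; omega
  · rw [min_eq_right h7] at hlo; omega

include hw in
/-- The sign of a strand which separates its left side. -/
theorem sg_of_sep (hA : A ∈ pcs ω D) (hl : ¬ IsLp D A) {e : Ed} (he : e ∈ A)
    (hs : Sep D A (ls e) (q 0)) : QB.sg q A = -1 := by
  obtain ⟨x, y, h⟩ := exists_xy hw.poly hw.enc hA hl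
  have h3 : Sep D A (q x) (q 0) := by
    obtain ⟨u, hu, h4⟩ := hs
    refine ⟨u, hu, ?_⟩
    rw [← (be_even hw.poly hw.enc h.2.2.2.2.1).1, (side_const hA hu hA he h.2.2.1).1]
    exact h4
  rw [sep_ard hw.poly hw.enc hA h.1.le, ard_xy hw.poly hw.enc hA h] at h3
  rw [sg_xy hw.poly hw.enc hA h, if_neg]
  intro h5
  rw [min_eq_left h5.le] at h3
  omega

theorem cb_rect {b : ℤ × ℤ} {a : ℤ} : cb b a = rect (b.1 - a / 4) (b.1 + a / 4 + 1) (b.2 + 5 * a / 4)
    (b.2 + 7 * a / 4 + 1) := by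
  ext v
  rw [mem_rect]
  unfold cb
  rw [mem_product, mem_Icc, mem_Icc]
  omega

theorem cb_sites {b z : ℤ × ℤ} {a : ℤ} (_ha : 4 ≤ a) (hz : z ∈ Kr b a) : z ∈ sites (cb b a) := by
  obtain ⟨h1, h2, h3, h4⟩ := hz
  rw [cb_rect, mem_sites_rect (by omega) (by omega)]
  omega

include hw ha in
theorem cb_sub : cb (q l) (a 1) ⊆ D ∧ ECon (cb (q l) (a 1)) := by
  obtain ⟨k1, k2, k3, k4⟩ := range_i hw ha 1
  constructor
  · intro v hv
    rw [cb_rect, mem_rect] at hv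
    exact hbox_sub (hw.flat.mono (by omega : 2 * a 1 ≤ R)) (by rw [mem_hbox]; omega)
  · rw [cb_rect]
    exact econ_rect (by omega) (by omega)

include hw ha in
/-- **A strand near the rings does not separate the core of the ring `1`, or it has the sign `- 1`
and contains a fixed edge.** -/
theorem strand_fav (hL : 4 ≤ L1) (hLR : 2 * L1 * a 2 ≤ R) (hF : ω ∈ Fav q D l a L1) :
    ∃ e : Ed, ∀ A ∈ pcs ω D, ¬ IsLp D A → Vz (hbox (q l) (2 * a 2 + 2)) A →
      (∀ z ∈ sites (cb (q l) (a 1)), ¬ Sep D A z (q 0)) ∨ (e ∈ A ∧ QB.sg q A = -1) := by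
  obtain ⟨-, -, h2, hnb, hLk⟩ := hF
  obtain ⟨hcD, hcE⟩ := cb_sub hw ha
  have hcst : ∀ A ∈ pcs ω D, ¬ IsLp D A → ∀ z ∈ sites (cb (q l) (a 1)),
      ∀ z' ∈ sites (cb (q l) (a 1)), (Sep D A z (q 0) ↔ Sep D A z' (q 0)) := fun A hA hl z hz z' hz' =>
    sep_zone hcD hcE (hnb A hA hl) hz hz'
  rcases hLk with ⟨z0, hz0, w0, hw0, hpar, hp⟩ | ⟨z0, hz0, w0, hw0, e, he, hp1, hp2⟩
  · refine ⟨Classical.choice ⟨Sum.inl (0, 0)⟩, fun A hA hl hv => Or.inl fun z hz => ?_⟩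
    rw [hcst A hA hl z hz z0 hz0, sep_of_pot (s' := w0) fun u hu =>
      pot_reach hA hu (stp_of_pw hp (by rw [hpar]; rfl))]
    exact far1 hw ha hL hLR h2 hA hl hv hw0
  · refine ⟨e, fun A hA hl hv => ?_⟩
    have hw1 := far1 hw ha hL hLR h2 hA hl hv hw0
    have q1 : Sep D A z0 (q 0) ↔ Sep D A (ls e) (q 0) := sep_of_pot fun u hu =>
      pot_reach hA hu (stp_of_pw hp1 (by rw [hp1.parity]; exact sc_par true e))
    have q2 : Sep D A (rs e) (q 0) ↔ Sep D A w0 (q 0) := sep_of_pot fun u hu =>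
      pot_reach hA hu (stp_of_pw hp2 (sc_par false e))
    by_cases heA : e ∈ A
    · by_cases hs : Sep D A z0 (q 0)
      · exact Or.inr ⟨heA, sg_of_sep hw hA hl heA (q1.1 hs)⟩
      · exact Or.inl fun z hz => by rw [hcst A hA hl z hz z0 hz0]; exact hs
    · refine Or.inl fun z hz => ?_
      rw [hcst A hA hl z hz z0 hz0, q1, sep_of_pot (s' := rs e) fun u hu => hu.eq he heA, q2]
      exact hw1

include hw ha hn h0 h1 hf0 hfs hf1 in
/-- **The weights of the visiting pieces on the favourable event.** -/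
theorem w_fav (hM : Md θ M) (hL : 4 ≤ L1) (hLR : 2 * L1 * a 2 ≤ R) (hF : ω ∈ Fav q D l a L1)
    (hA : A ∈ pcs ω D) (hV : ∃ i, Vz (Zr (q l) (a i)) A) :
    M⁻¹ ≤ wB θ (gB θ) q D n A (mass D (q 0) (Ft (ta θ) f 0) A) := by
  obtain ⟨r1, r2, r3⟩ := mass_rg hw ha hf0 hfs hf1 h0 A
  by_cases hl : IsLp D A
  · have h2 : mass D (q 0) (f 0) A ≤ 0 ∨ mass D (q 0) (f 1) A ≤ 0 := by
      by_contra hcon
      push Not at hcon
      have v0 := lp_vis hw ha hn hfs hf1 hA hl 0 hcon.1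
      have v1 := lp_vis hw ha hn hfs hf1 hA hl 1 hcon.2
      exact hF.1 (cross01 hw ha hA v0 v1 true)
    unfold wB
    rw [if_pos hl]
    exact hM.w1 _ r1 (r3 h2)
  · obtain ⟨e, he⟩ := strand_fav hw ha hL hLR hF
    have hv : Vz (hbox (q l) (2 * a 2 + 2)) A := by
      obtain ⟨i, d, hd, hz⟩ := hV
      refine ⟨d, hd, eds_mono (fun v hv => ?_) hz⟩
      have hv' : v ∈ Zg (q l) (a i) (2 * a i) := hv
      rw [mem_Zg] at hv'
      rw [mem_hbox]
      have h5 : a i ≤ a 2 := by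
        rcases (show i ≤ 2 from Fin.le_last i).lt_or_eq with h | h
        · have := a_mono hw ha h
          have := range_i hw ha i
          omega
        · rw [h]
      omega
    rw [wB_free hw.poly hw.enc hA hl (hi_lt hw hA hl)]
    rcases he A hA hl hv with h2 | ⟨-, h2⟩
    · -- no mass of the ring `1`
      have hm : mass D (q 0) (f 1) A = 0 := by
        unfold mass
        refine sum_eq_zero fun z _ => ?_
        by_cases hz : f 1 z = 0
        · simp [hz]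
        · rw [if_neg (h2 z (cb_sites (by have := range_i hw ha 1; omega) (hfs 1 z hz)))]
      have h3 := r3 (Or.inr hm.le)
      split_ifs
      · exact hM.w3 _ r1 h3
      · exact hM.w4 _ r1 r2
    · rw [if_neg (by rw [h2]; decide)]
      exact hM.w4 _ r1 r2

end

end Vale.Agent.P167.H437Q.Du
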