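import Vale.Agent.P167.H208.ND.Red

/-!
# P167, general `q`, block Q-ND: the deterministic part of the junction (`s_jd : S_jd θ`)

At the junction the pieces which avoid the rings have the weight `sin (θ + t) / sin θ`, `t` the charge of the rings
which they surround, if they go from the left to the right of `b = q k`, and one otherwise: the product of their
weights is `Vc`. The pieces which visit a ring visit only one ring if no gap is crossed, and have a weight of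
order one.
-/

namespace Vale.Agent.P167.H437Q.Jd

open Finset Relation Vale.Agent.P167.BR Vale.Agent.P167
open Vale.Agent.P167.QX (lo hi wB XB)
open Vale.Agent.P167.QB (gB gB_cos Ard ard_lp wB_hx dlt XG)
open Vale.Agent.P167.H436.ND
open Vale.Agent.P167.H192.TA (Xc)
open Vale.Agent.P167.H542.Q (cB cB_pos wR thB wR_thB phs_thB)
open Vale.Agent.P167.H562.QM (MajA)
open Vale.Agent.P167.H562.MAJ (Sm)
open Vale.Agent.P167.H562.SML (smf)
open Vale.Agent.P167.H640.ND (mem_sites_Zg)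
open Vale.Agent.P167.H208.ND (Sj Sj_succ Sj_zero Mc exists_mc cls sL zn_ring rng_ring range_i mass_av
  mass_vis mass_01 mass_lin kr_sites ard_l sep_iff vz_iff abs_G_le one_ring sj_fre dlt_zero)

variable {D : Finset (ℤ × ℤ)} {ω : Cfg} {n m : ℕ} {q : ZMod n → ℤ × ℤ} {A : Finset Ed}
  {l : ℕ} {θ : ℝ} {R : ℤ} {a : Fin m → ℤ} {τ : Fin m → ℝ} {M : ℝ} {f : Fin m → ℤ × ℤ → ℝ}

/-! ### the weights -/

/-- The class weights at the junction. -/
noncomputable def vw (θ : ℝ) (τ : Fin m → ℝ) (j : ℕ) : ℝ := Real.sin (θ + Sj τ 0 j) / Real.sin θ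

/-- The charges at the junction: partial sums between `0` and `π - 2 θ`. -/
structure Chj (θ : ℝ) (τ : Fin m → ℝ) : Prop where
  lo : ∀ j, 0 ≤ Sj τ 0 j
  up : ∀ j, Sj τ 0 j ≤ Real.pi - 2 * θ
  small : ∀ i, |τ i| ≤ θ / 11

theorem one_le_w (h0 : 0 < θ) (h1 : θ ≤ Real.pi / 3) {x : ℝ} (hx : 0 ≤ x)
    (hx1 : x ≤ Real.pi - 2 * θ) : 1 ≤ Real.sin (θ + x) / Real.sin θ := by
  have hpi := Real.pi_pos
  have hs : 0 < Real.sin θ := Real.sin_pos_of_pos_of_lt_pi h0 (by linarith)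
  rw [le_div_iff₀ hs, one_mul]
  have h2 := Real.sin_sub_sin (θ + x) θ
  have h3 : 0 ≤ Real.sin ((θ + x - θ) / 2) :=
    Real.sin_nonneg_of_nonneg_of_le_pi (by linarith) (by linarith)
  have h4 : 0 ≤ Real.cos ((θ + x + θ) / 2) :=
    Real.cos_nonneg_of_mem_Icc ⟨by linarith, by linarith⟩
  have h5 : 0 ≤ 2 * Real.sin ((θ + x - θ) / 2) * Real.cos ((θ + x + θ) / 2) := by positivity
  linarith

theorem vw_ge (h0 : 0 < θ) (h1 : θ ≤ Real.pi / 3) (hC : Chj θ τ) (j : ℕ) : 1 ≤ vw θ τ j :=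
  one_le_w h0 h1 (hC.lo j) (hC.up j)

theorem vw_le (h0 : 0 < θ) (h1 : θ ≤ Real.pi / 3) (j : ℕ) : vw θ τ j ≤ 1 / Real.sin θ := by
  have hpi := Real.pi_pos
  have hs : 0 < Real.sin θ := Real.sin_pos_of_pos_of_lt_pi h0 (by linarith)
  exact div_le_div_of_nonneg_right (Real.sin_le_one _) hs.le

theorem vw_one (h0 : 0 < θ) (h1 : θ ≤ Real.pi / 3) {j : ℕ}
    (h : Sj τ 0 j = 0 ∨ Sj τ 0 j = Real.pi - 2 * θ) : vw θ τ j = 1 := by
  have hpi := Real.pi_pos
  have hs : 0 < Real.sin θ := Real.sin_pos_of_pos_of_lt_pi h0 (by linarith)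
  unfold vw
  rcases h with h | h <;> rw [h]
  · rw [add_zero, div_self hs.ne']
  · rw [show θ + (Real.pi - 2 * θ) = Real.pi - θ by ring, Real.sin_pi_sub, div_self hs.ne']

theorem sj_top {e : ℝ} {j : ℕ} (hj : m ≤ j) : Sj τ e j = Sj τ e m := by
  unfold Sj
  congr 1
  refine sum_congr rfl fun i _ => ?_
  have := i.2
  rw [if_pos (by omega), if_pos (by omega)]

theorem cos_gB (θ t : ℝ) : Real.cos (θ / 2 + gB θ + t) = Real.sin (θ + t) := by
  unfold gB
  rw [show θ / 2 + (θ - Real.pi) / 2 + t = -(Real.pi / 2 - (θ + t)) by ring, Real.cos_neg,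
    Real.cos_pi_div_two_sub]

/-! ### the avoiding pieces -/

section

variable (hw : Win q D l R) (ha : Scl 4000 4 R a) (hn : (l : ℤ) + R ≤ n)
  (h0 : 0 < θ) (h1 : θ ≤ Real.pi / 3)
  (hfs : ∀ i z, f i z ≠ 0 → z ∈ Kr (q l) (a i)) (hf1 : ∀ i, ∑ᶠ z, f i z = 1)
include hw ha hn h0 h1 hfs hf1

/-- The weight of a piece which avoids the rings. -/
theorem av_eq (hA : A ∈ pcs ω D) (hV : ∀ i, ¬ Vz (Zr (q l) (a i)) A) :
    wB θ (gB θ) q D l A (mass D (q 0) (Ft τ f 0) A) = vw θ τ (cls q (sL l a) A) := by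
  classical
  have hpi := Real.pi_pos
  have hs : 0 < Real.sin θ := Real.sin_pos_of_pos_of_lt_pi h0 (by linarith)
  have hc : 0 < Real.cos θ := Real.cos_pos_of_mem_Ioo ⟨by linarith, by linarith⟩
  rw [← dlt_zero (q l), mass_av hw ha hn le_rfl hfs hf1 hA hV]
  by_cases hl : Ard q l A
  · rw [if_pos hl]
    unfold wB vw
    rw [if_neg (fun h => ard_lp hw.poly hw.enc hA h hl), if_pos (show lo q A < l ∧ l ≤ hi q A from hl),
      cos_gB]
  · rw [if_neg hl, wB_hx hs hc]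
    have h2 : cls q (sL l a) A = 0 := by
      unfold cls
      rw [card_eq_zero, filter_eq_empty_iff]
      intro i _ h3
      exact hl (ard_l hw.poly hw.enc (zn_ring hw ha hn le_rfl) i hA (hV i) h3)
    rw [h2]
    exact (vw_one h0 h1 (Or.inl Sj_zero)).symm

end

/-- The product of the class weights. -/
theorem vc_eq (hw : Win q D l R) (ha : Scl 4000 4 R a) (hn : (l : ℤ) + R ≤ n) (v : ℕ → ℝ) :
    Vc v q D (zf (q l) a) (UU (q l) a 0) ω = (open Classical in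
      ∏ A ∈ (pcs ω D).filter (fun A => ∀ i, ¬ Vz (Zr (q l) (a i)) A), v (cls q (sL l a) A)) := by
  classical
  unfold Vc
  symm
  refine prod_congr ?_ fun A hA => ?_
  · refine filter_congr fun A _ => ?_
    rw [vz_iff, not_exists]
  · rw [mem_filter] at hA
    refine congrArg v ?_
    unfold cls clz
    refine congrArg Finset.card ?_
    refine filter_congr fun i _ => ?_
    refine (sep_iff hw.poly hw.enc (zn_ring hw ha hn le_rfl) i hA.1
      (fun hv => hA.2 (vz_iff.2 ⟨i, hv⟩)) ?_).symm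
    have h1 := range_i hw ha i
    show zf (q l) a i ∈ sites (Zg (q l) (a i) (2 * a i))
    rw [mem_sites_Zg (by omega) (by omega)]
    unfold zf
    simp only
    omega

/-! ### the visiting pieces -/

section

variable (hw : Win q D l R) (ha : Scl 4000 4 R a) (hn : (l : ℤ) + R ≤ n)
  (h0 : 0 < θ) (h1 : θ ≤ Real.pi / 3) (hM : Mc θ M) (hC : Chj θ τ) (hf0 : ∀ i z, 0 ≤ f i z)
  (hfs : ∀ i z, f i z ≠ 0 → z ∈ Kr (q l) (a i)) (hf1 : ∀ i, ∑ᶠ z, f i z = 1)
include hw ha hn h0 h1 hM hC hf0 hfs hf1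

/-- **The weights of the visiting pieces are positive.** -/
theorem wpos (hgood : ∀ i j : Fin m, (i : ℕ) + 1 = j → ω ∉ Xc false (q l) (2 * a i) (a j))
    (hA : A ∈ pcs ω D) (hV : ∃ i, Vz (Zr (q l) (a i)) A) :
    M⁻¹ ≤ wB θ (gB θ) q D l A (mass D (q 0) (Ft τ f 0) A) := by
  classical
  obtain ⟨i0, hV0⟩ := hV
  have hV' : ∀ i, i ≠ i0 → ¬ Vz (Zr (q l) (a i)) A := fun i hi h =>
    hi (one_ring hw ha hgood hA h hV0)
  rw [← dlt_zero (q l), mass_vis hw ha hn le_rfl hfs hf1 hA i0 hV0 hV']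
  obtain ⟨σ, hσ⟩ : ∃ σ, σ = mass D (q 0) (f i0) A := ⟨_, rfl⟩
  have h01 := mass_01 hw ha i0 (hf0 i0) (hfs i0) (hf1 i0) A
  rw [← hσ] at h01 ⊢
  have hsm := hC.small i0
  have hts : |τ i0 * σ| ≤ θ / 11 := by
    rw [abs_mul, abs_of_nonneg h01.1]
    nlinarith [abs_nonneg (τ i0)]
  have hts' := abs_le.1 hts
  by_cases hl : Ard q l A
  · rw [if_pos hl]
    have hS := Sj_succ (τ := τ) (e := 0) i0
    have hS1 := hC.lo i0
    have hS2 := hC.up i0
    have hS3 := hC.lo (i0 + 1)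
    have hS4 := hC.up (i0 + 1)
    have e1 : τ i0 * σ + Sj τ 0 i0 = σ * Sj τ 0 (i0 + 1) + (1 - σ) * Sj τ 0 i0 := by
      rw [hS]; ring
    rw [e1]
    unfold wB
    rw [if_neg (fun h => ard_lp hw.poly hw.enc hA h hl), if_pos (show lo q A < l ∧ l ≤ hi q A from hl),
      cos_gB]
    refine le_trans ?_ (one_le_w h0 h1 ?_ ?_)
    · exact inv_le_one_of_one_le₀ hM.h1
    · nlinarith [mul_nonneg h01.1 hS3, mul_nonneg (sub_nonneg.2 h01.2) hS1]
    · nlinarith [mul_nonneg h01.1 (sub_nonneg.2 hS4), mul_nonneg (sub_nonneg.2 h01.2) (sub_nonneg.2 hS2)]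
  · rw [if_neg hl, add_zero]
    unfold wB
    split_ifs with c1 c2 c3
    · exact hM.w1 _ hts
    · exact absurd c2 hl
    · exact hM.w4 _ (by linarith) hts'.2
    · exact hM.w3 _ (by linarith) hts'.2

open Classical in
/-- The product over the visiting pieces. -/
theorem vis_bd {N : Fin m → ℕ} (hN : ∀ i, MajA (Zr (q l) (a i)) (kp * a i) ω (N i)) :
    |∏ A ∈ (pcs ω D).filter (fun A => ∃ i, Vz (Zr (q l) (a i)) A),
      wB θ (gB θ) q D l A (mass D (q 0) (Ft τ f 0) A)| ≤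
      ∏ i, Yu θ M (τ i) (f i) (a i) (N i) ω ∧
    ((∀ i j : Fin m, (i : ℕ) + 1 = j → ω ∉ Xc false (q l) (2 * a i) (a j)) →
      ∏ i, (Yl θ M (τ i) (f i) (q l) (a i) (N i) ω)⁻¹ ≤
      ∏ A ∈ (pcs ω D).filter (fun A => ∃ i, Vz (Zr (q l) (a i)) A),
        wB θ (gB θ) q D l A (mass D (q 0) (Ft τ f 0) A)) := by
  have e1 : Ft (fun _ => 1) (fun i z => τ i * f i z) 0 = Ft τ f 0 := by
    funext z
    simp [Ft]
  have m0 : ∀ A : Finset Ed, mass D (q 0) 0 A = 0 := fun A => by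
    unfold mass
    refine sum_eq_zero fun z _ => ?_
    simp
  have key := H542.Q.PW.s_PW θ (cB θ) D (thB θ (gB θ) q D l) (q 0) (phs_thB h0 h1 (gB_cos θ)) m
    (fun i => Zr (q l) (a i)) (fun i => Kr (q l) (a i)) (fun i => kp * a i) (rng_ring hw ha)
    (fun i z => τ i * f i z) 0 (fun i z hz => hfs i z (right_ne_zero_of_mul hz)) ω
    (fun i ℓ _ _ => ?_) (fun A hA hv => ⟨m0 A, fun hl => ?_⟩) N hN M hM.h1 hM.cb
  · rw [e1] at key
    simp only [wR_thB (gB_cos θ)] at key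
    refine ⟨key.1, fun hgood => ?_⟩
    refine le_trans (le_of_eq ?_) (key.2 fun A hA hv => ?_)
    · refine prod_congr rfl fun i _ => ?_
      unfold Yl
      rw [mul_inv, ← Real.exp_neg, inv_pow]
      congr 2
      ring
    · obtain ⟨i, hv, -⟩ := hv
      exact wpos hw ha hn h0 h1 hM hC hf0 hfs hf1 hgood hA ⟨i, hv⟩
  · have h2 := hC.small i
    have h3 := range_i hw ha i
    have h4 : |G (fun z => τ i * f i z) ℓ| ≤ |τ i| :=
      abs_G_le (F := sites (Zr (q l) (a i))) (τ i) (hf0 i)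
        (fun z hz => kr_sites (by omega) (hfs i z hz)) (hf1 i) ℓ
    have := Real.pi_lt_d2
    linarith
  · obtain ⟨h2, h3⟩ := H135.ND.s_small n q D l R hw m a ha ω A hA hv
    rw [e1, mass_lin, m0, add_zero]
    refine sum_eq_zero fun i _ => ?_
    have : mass D (q 0) (f i) A = 0 := by
      unfold mass
      refine sum_eq_zero fun z _ => ?_
      by_cases hz : f i z = 0
      · rw [hz, ite_self]
      · rw [if_neg (h3 hl i z (hfs i z hz))]
    rw [this, mul_zero]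

/-- **The functional and the product of the class weights.** -/
theorem det_j {N : Fin m → ℕ} (hN : ∀ i, MajA (Zr (q l) (a i)) (kp * a i) ω (N i)) :
    |XG θ q D l (Ft τ f 0) ω| ≤ Vc (vw θ τ) q D (zf (q l) a) (UU (q l) a 0) ω *
      ∏ i, Yu θ M (τ i) (f i) (a i) (N i) ω ∧
    ((∀ i j : Fin m, (i : ℕ) + 1 = j → ω ∉ Xc false (q l) (2 * a i) (a j)) →
      Vc (vw θ τ) q D (zf (q l) a) (UU (q l) a 0) ω ≤ XG θ q D l (Ft τ f 0) ω *
        ∏ i, Yl θ M (τ i) (f i) (q l) (a i) (N i) ω) := by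
  classical
  have hM0 : 0 < M := by linarith [hM.h1]
  obtain ⟨k1, k2⟩ := vis_bd hw ha hn h0 h1 hM hC hf0 hfs hf1 hN
  have hX : XG θ q D l (Ft τ f 0) ω = Vc (vw θ τ) q D (zf (q l) a) (UU (q l) a 0) ω *
      ∏ A ∈ (pcs ω D).filter (fun A => ∃ i, Vz (Zr (q l) (a i)) A),
        wB θ (gB θ) q D l A (mass D (q 0) (Ft τ f 0) A) := by
    rw [vc_eq hw ha hn]
    unfold XG QX.XB
    rw [← prod_filter_mul_prod_filter_not (pcs ω D) (fun A => ∀ i, ¬ Vz (Zr (q l) (a i)) A)]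
    congr 1
    · refine prod_congr rfl fun A hA => ?_
      rw [mem_filter] at hA
      exact av_eq hw ha hn h0 h1 hfs hf1 hA.1 hA.2
    · refine prod_congr ?_ fun _ _ => rfl
      refine filter_congr fun A _ => ?_
      push Not
      rfl
  have hV : 0 ≤ Vc (vw θ τ) q D (zf (q l) a) (UU (q l) a 0) ω := by
    rw [vc_eq hw ha hn]
    exact prod_nonneg fun A _ => zero_le_one.trans (vw_ge h0 h1 hC _)
  rw [hX]
  refine ⟨?_, fun hgood => ?_⟩
  · rw [abs_mul, abs_of_nonneg hV]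
    exact mul_le_mul_of_nonneg_left k1 hV
  · have k3 := k2 hgood
    obtain ⟨U, hU⟩ : ∃ U, U = ∏ A ∈ (pcs ω D).filter (fun A => ∃ i, Vz (Zr (q l) (a i)) A),
      wB θ (gB θ) q D l A (mass D (q 0) (Ft τ f 0) A) := ⟨_, rfl⟩
    obtain ⟨Y, hY⟩ : ∃ Y, Y = ∏ i, Yl θ M (τ i) (f i) (q l) (a i) (N i) ω := ⟨_, rfl⟩
    rw [← hU] at k3 ⊢
    rw [← hY]
    rw [prod_inv_distrib, ← hY] at k3
    have hY0 : 0 < Y := by
      rw [hY]
      refine prod_pos fun i _ => ?_
      unfold Yl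
      positivity
    have h6 : 1 ≤ U * Y := by
      have := mul_le_mul_of_nonneg_right k3 hY0.le
      rwa [inv_mul_cancel₀ hY0.ne'] at this
    rw [mul_assoc]
    exact le_mul_of_one_le_right hV h6

end

/-! ### the charges of the junction -/

theorem chj_tau (h0 : 0 < θ) (h1 : θ ≤ Real.pi / 3) {J : ℕ} (hJ0 : 0 < J)
    (hJ : 11 * (Real.pi - 2 * θ) ≤ J * θ) : Chj θ (tau2 J (Real.pi - 2 * θ)) := by
  have hpi := Real.pi_pos
  have hJ' : (0 : ℝ) < J := by exact_mod_cast hJ0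
  obtain ⟨g1, g2⟩ := sj_fre hJ0 (Real.pi - 2 * θ)
  have ht : 0 ≤ (Real.pi - 2 * θ) / J := div_nonneg (by linarith) hJ'.le
  have hJx : (J : ℝ) * ((Real.pi - 2 * θ) / J) = Real.pi - 2 * θ := by field_simp
  have hr : ∀ j, 0 ≤ Sj (tau2 J (Real.pi - 2 * θ)) 0 j ∧
      Sj (tau2 J (Real.pi - 2 * θ)) 0 j ≤ Real.pi - 2 * θ := by
    intro j
    rcases le_total j J with h | h
    · rw [g1 j h]
      have h3 : (j : ℝ) ≤ J := by exact_mod_cast h
      have h4 : (0 : ℝ) ≤ j := by positivity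
      refine ⟨by positivity, ?_⟩
      calc (j : ℝ) * ((Real.pi - 2 * θ) / J) ≤ J * ((Real.pi - 2 * θ) / J) :=
            mul_le_mul_of_nonneg_right h3 ht
        _ = _ := hJx
    · rcases le_total j (2 * J) with h' | h'
      · rw [g2 j h h']
        have h3 : (J : ℝ) ≤ j := by exact_mod_cast h
        have h4 : (j : ℝ) ≤ 2 * J := by exact_mod_cast h'
        refine ⟨mul_nonneg (by linarith) ht, ?_⟩
        calc (2 * (J : ℝ) - j) * ((Real.pi - 2 * θ) / J) ≤ J * ((Real.pi - 2 * θ) / J) :=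
              mul_le_mul_of_nonneg_right (by linarith) ht
          _ = _ := hJx
      · rw [sj_top h', g2 (2 * J) (by omega) le_rfl]
        push_cast
        rw [sub_self, zero_mul]
        exact ⟨le_rfl, by linarith⟩
  refine ⟨fun j => (hr j).1, fun j => (hr j).2, fun i => ?_⟩
  have h3 : |tau2 J (Real.pi - 2 * θ) i| = (Real.pi - 2 * θ) / J := by
    unfold tau2
    split_ifs
    · exact abs_of_nonneg ht
    · rw [abs_neg]; exact abs_of_nonneg ht
  rw [h3, div_le_div_iff₀ hJ' (by norm_num)]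
  linarith

/-- **(JD)** -/
theorem s_jd (h0 : 0 < θ) (h1 : θ ≤ Real.pi / 3) : S_jd θ := by
  obtain ⟨J0, hJ0⟩ := exists_nat_ge (11 * (Real.pi - 2 * θ) / θ)
  rw [div_le_iff₀ h0] at hJ0
  refine ⟨max J0 1, by omega, fun J hJ => ?_⟩
  have hJ1 : 0 < J := by omega
  have hJJ : (J0 : ℝ) ≤ J := by
    have : J0 ≤ J := (le_max_left _ _).trans hJ
    exact_mod_cast this
  have hJ2 : 11 * (Real.pi - 2 * θ) ≤ J * θ := hJ0.trans (mul_le_mul_of_nonneg_right hJJ h0.le)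
  have hC := chj_tau h0 h1 hJ1 hJ2
  obtain ⟨g1, g2⟩ := sj_fre hJ1 (Real.pi - 2 * θ)
  obtain ⟨M, hM⟩ := exists_mc h0 h1
  refine ⟨vw θ (tau2 J (Real.pi - 2 * θ)), 1 / Real.sin θ, M, 4, 4000, vw_one h0 h1 (Or.inl Sj_zero),
    vw_ge h0 h1 hC, vw_le h0 h1, fun j hj => ?_, hM.h1, le_rfl, ?_⟩
  · constructor
    · by_contra hcon
      refine hj (vw_one h0 h1 (Or.inl ?_))
      rw [sj_top (by omega), g2 (2 * J) (by omega) le_rfl]
      push_cast
      rw [sub_self, zero_mul]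
    · rintro rfl
      refine hj (vw_one h0 h1 (Or.inr ?_))
      rw [g1 j le_rfl]
      have : (0 : ℝ) < j := by exact_mod_cast hJ1
      field_simp
  · intro n q D k R hw hk a ha _ Cm f hf ω N hN
    have h2 := range_i hw ha ⟨0, by omega⟩
    exact det_j hw ha h2.2.2.2 h0 h1 hM hC (fun i => (hf i).nonneg) (fun i => (hf i).supp)
      (fun i => (hf i).sum) hN

end Vale.Agent.P167.H437Q.Jd
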