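import Vale.Agent.P167.H562.Q.CB3
import Vale.Agent.P167.H562.Q.MQ3

/-!
# P167, general `q`, block Q-SRSW: moments of a sum of local numbers by successive conditioning
-/

namespace Vale.Agent.P167.H437Q

open Finset Vale.Agent.P167.FK
open Vale.Agent.P167.FKA (Loc Ind)

variable {Q : ℝ} {D : Finset (ℤ × ℤ)} {η : Cfg}

/-- Successive conditioning: a product of local factors in disjoint sets. -/
theorem ex_prod_le {ι : Type*} [DecidableEq ι] (J : Finset ι) (V : ι → Finset (ℤ × ℤ))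
    (F : ι → Cfg → ℝ) {c : ℝ} (hc : 0 ≤ c)
    (hF0 : ∀ i ∈ J, ∀ ω, 0 ≤ F i ω) (hloc : ∀ i ∈ J, Loc (V i) (F i))
    (hdis : ∀ i ∈ J, ∀ j ∈ J, i ≠ j → Disjoint (V i) (V j))
    (hE : ∀ i ∈ J, ∀ G : Cfg → ℝ, (∀ ω, 0 ≤ G ω) → Ind (V i) G →
      Ex Q D η (fun ω => G ω * F i ω) ≤ c * Ex Q D η G)
    (G : Cfg → ℝ) (hG0 : ∀ ω, 0 ≤ G ω) (hG : ∀ i ∈ J, Ind (V i) G) :
    Ex Q D η (fun ω => G ω * ∏ i ∈ J, F i ω) ≤ c ^ J.card * Ex Q D η G := by
  induction J using Finset.induction_on with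
  | empty => simp
  | insert i J hi ih =>
    have h1 := ih (fun j hj => hF0 j (mem_insert_of_mem hj)) (fun j hj => hloc j (mem_insert_of_mem hj))
      (fun j hj k hk => hdis j (mem_insert_of_mem hj) k (mem_insert_of_mem hk))
      (fun j hj => hE j (mem_insert_of_mem hj))
      (fun j hj => hG j (mem_insert_of_mem hj))
    have h2 := hE i (mem_insert_self _ _) (fun ω => G ω * ∏ j ∈ J, F j ω)
      (fun ω => mul_nonneg (hG0 ω) (Finset.prod_nonneg fun j hj => hF0 j (mem_insert_of_mem hj) ω))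
      (by
        refine FKA.Ind.mul (hG i (mem_insert_self _ _)) fun ω ω' h => ?_
        refine Finset.prod_congr rfl fun j hj => ?_
        refine hloc j (mem_insert_of_mem hj) ω ω' fun v hv => h v fun hv' => ?_
        have hij : i ≠ j := fun h => hi (h ▸ hj)
        exact Finset.disjoint_left.1 (hdis i (mem_insert_self _ _) j (mem_insert_of_mem hj) hij)
          hv' hv)
    have e : (fun ω => G ω * ∏ j ∈ insert i J, F j ω) =
        fun ω => (G ω * ∏ j ∈ J, F j ω) * F i ω := by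
      ext ω
      rw [Finset.prod_insert hi]
      ring
    rw [e, Finset.card_insert_of_notMem hi, pow_succ', mul_assoc]
    exact h2.trans (mul_le_mul_of_nonneg_left h1 hc)

/-- AM-GM for a finite product. -/
theorem prod_le_mean {κ : Type*} (K : Finset κ) (hK : K.Nonempty) (z : κ → ℝ)
    (hz : ∀ k ∈ K, 0 ≤ z k) : ∏ k ∈ K, z k ≤ ∑ k ∈ K, (1 / (K.card : ℝ)) * z k ^ K.card := by
  have hn : 0 < K.card := Finset.card_pos.2 hK
  have hn' : (0 : ℝ) < K.card := by exact_mod_cast hn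
  have h := Real.geom_mean_le_arith_mean_weighted K (fun _ => 1 / (K.card : ℝ))
    (fun k => z k ^ K.card) (fun k _ => by positivity)
    (by rw [Finset.sum_const, nsmul_eq_mul]; field_simp) (fun k hk => pow_nonneg (hz k hk) _)
  refine le_trans (le_of_eq ?_) h
  refine Finset.prod_congr rfl fun k hk => ?_
  rw [← Real.rpow_natCast, ← Real.rpow_mul (hz k hk), mul_one_div_cancel hn'.ne', Real.rpow_one]

/-- Moments of a product of local factors: colour classes with disjoint supports. -/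
theorem ex_prod_col {ι κ : Type*} [DecidableEq ι] [Fintype κ] [DecidableEq κ] [Nonempty κ]
    (hQ : 0 < Q) (J : Finset ι)
    (col : ι → κ) (V : ι → Finset (ℤ × ℤ)) (F : ι → Cfg → ℝ) {c : ℝ} (hc : 1 ≤ c)
    (hF0 : ∀ i ∈ J, ∀ ω, 0 ≤ F i ω) (hloc : ∀ i ∈ J, Loc (V i) (F i))
    (hdis : ∀ i ∈ J, ∀ j ∈ J, i ≠ j → col i = col j → Disjoint (V i) (V j))
    (hE : ∀ i ∈ J, ∀ G : Cfg → ℝ, (∀ ω, 0 ≤ G ω) → Ind (V i) G →
      Ex Q D η (fun ω => G ω * F i ω ^ Fintype.card κ) ≤ c * Ex Q D η G)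
    (G : Cfg → ℝ) (hG0 : ∀ ω, 0 ≤ G ω) (hG : ∀ i ∈ J, Ind (V i) G) :
    Ex Q D η (fun ω => G ω * ∏ i ∈ J, F i ω) ≤ c ^ J.card * Ex Q D η G := by
  classical
  have hc0 : 0 ≤ c := by linarith
  have hGE : 0 ≤ Ex Q D η G := FKA.Ex_nonneg hQ fun S _ => hG0 _
  have hk0 : 0 < Fintype.card κ := Fintype.card_pos
  have hk0' : (0 : ℝ) < Fintype.card κ := by exact_mod_cast hk0
  have key : ∀ ω, G ω * ∏ i ∈ J, F i ω ≤ ∑ k : κ, (1 / (Fintype.card κ : ℝ)) *
      (G ω * ∏ i ∈ J with col i = k, F i ω ^ Fintype.card κ) := by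
    intro ω
    have h1 := prod_le_mean (Finset.univ : Finset κ) Finset.univ_nonempty
      (fun k => ∏ i ∈ J with col i = k, F i ω)
      (fun k _ => Finset.prod_nonneg fun i hi => hF0 i (Finset.mem_filter.1 hi).1 ω)
    rw [Finset.prod_fiberwise_of_maps_to (fun i _ => Finset.mem_univ (col i)),
      Finset.card_univ] at h1
    calc G ω * ∏ i ∈ J, F i ω ≤ G ω * ∑ k : κ, (1 / (Fintype.card κ : ℝ)) *
        (∏ i ∈ J with col i = k, F i ω) ^ Fintype.card κ :=
          mul_le_mul_of_nonneg_left h1 (hG0 ω)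
      _ = _ := by
          rw [Finset.mul_sum]
          refine Finset.sum_congr rfl fun k _ => ?_
          rw [Finset.prod_pow]
          ring
  refine (FKA.Ex_mono (G := fun ω => ∑ k : κ, (1 / (Fintype.card κ : ℝ)) *
      (G ω * ∏ i ∈ J with col i = k, F i ω ^ Fintype.card κ)) hQ fun S _ => key _).trans ?_
  rw [FKA.Ex_sum]
  have h2 : ∀ k : κ, Ex Q D η (fun ω => (1 / (Fintype.card κ : ℝ)) *
      (G ω * ∏ i ∈ J with col i = k, F i ω ^ Fintype.card κ)) ≤
      (1 / (Fintype.card κ : ℝ)) * (c ^ J.card * Ex Q D η G) := by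
    intro k
    rw [FKA.Ex_mul_left]
    refine mul_le_mul_of_nonneg_left ?_ (by positivity)
    refine (ex_prod_le (J.filter fun i => col i = k) V (fun i ω => F i ω ^ Fintype.card κ) hc0
      (fun i hi ω => pow_nonneg (hF0 i (Finset.mem_filter.1 hi).1 ω) _)
      (fun i hi ω ω' h => by
        show F i ω ^ _ = F i ω' ^ _
        rw [hloc i (Finset.mem_filter.1 hi).1 ω ω' h])
      (fun i hi j hj hij => hdis i (Finset.mem_filter.1 hi).1 j (Finset.mem_filter.1 hj).1 hij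
        ((Finset.mem_filter.1 hi).2.trans (Finset.mem_filter.1 hj).2.symm))
      (fun i hi => hE i (Finset.mem_filter.1 hi).1) G hG0
      (fun i hi => hG i (Finset.mem_filter.1 hi).1)).trans ?_
    refine mul_le_mul_of_nonneg_right ?_ hGE
    exact pow_le_pow_right₀ hc (Finset.card_filter_le _ _)
  refine (Finset.sum_le_sum fun k _ => h2 k).trans (le_of_eq ?_)
  rw [Finset.sum_const, Finset.card_univ, nsmul_eq_mul]
  field_simp

/-- One factor: `1 + (Y - 1) 1_T` where `T` has a small conditional probability. -/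
theorem fac_le (hQ : 0 < Q) {Y : Cfg → ℝ} (T : Set Cfg) {C ε : ℝ}
    (hC : 0 ≤ C) (hε : 0 ≤ ε) {G : Cfg → ℝ} (hG0 : ∀ ω, 0 ≤ G ω)
    (h1 : Ex Q D η (fun ω => G ω * Y ω ^ 2) ≤ C * Ex Q D η G)
    (h2 : Ex Q D η (fun ω => G ω * T.indicator 1 ω) ≤ ε * Ex Q D η G) :
    Ex Q D η (fun ω => G ω * (1 + (Y ω - 1) * T.indicator 1 ω)) ≤
      (1 + Real.sqrt (C * ε)) * Ex Q D η G := by
  have hGE : 0 ≤ Ex Q D η G := FKA.Ex_nonneg hQ fun S _ => hG0 _
  have h3 := H562.QM.ex_cs (Q := Q) (D := D) (η := η) hQ hG0 (F1 := Y) (F2 := T.indicator 1)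
    (a := Real.sqrt C) (b := Real.sqrt ε) (Real.sqrt_nonneg _) (Real.sqrt_nonneg _) hGE
    (by rw [Real.sq_sqrt hC]; exact h1)
    (by
      rw [Real.sq_sqrt hε]
      refine le_trans (le_of_eq ?_) h2
      refine FKA.Ex_congr fun S _ => ?_
      by_cases h : cf D η S ∈ T <;> simp [h])
  rw [Real.sqrt_mul hC, add_mul, one_mul]
  refine le_trans ?_ (add_le_add le_rfl h3)
  rw [← FKA.Ex_add]
  refine FKA.Ex_mono hQ fun S _ => ?_
  have h4 := FKA.ind_nonneg T (cf D η S)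
  have h5 := hG0 (cf D η S)
  nlinarith [mul_nonneg h5 h4]

end Vale.Agent.P167.H437Q
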