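import Vale.Agent.P167.H437Q.Str

/-!
# P167, general `q`, block Q-SRSW: moments of the number of the through strands of a strip
-/

namespace Vale.Agent.P167.H437Q

open Finset Vale.Agent.P167.FK Relation
open Vale.Agent.P145.FB (PStep PConn)
open Vale.Agent.P167.FKA (Loc Ind nm_le_iff le_nm_iff)
open Vale.Agent.P167.BR (pcs)
open Vale.Agent.P167.H562.QM (MajA)
open Vale.Agent.P167.H452 (St et nT touch)

variable {Q : ℝ} {D : Finset (ℤ × ℤ)} {η ω : Cfg} {s : Bool} {z : ℤ × ℤ} {M R : ℤ}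

/-- The event depends only on the box. -/
theorem tt_loc {ω ω' : Cfg} (h : ∀ v ∈ Bq z (4 * M), ω v = ω' v) (hω : ω ∈ TT s z M) :
    ω' ∈ TT s z M := by
  obtain ⟨u, v, h1, h2, h3, h4, h5, h6⟩ := hω
  refine ⟨u, v, h1, h2, h3, h4, h5, ?_⟩
  have hM : 0 ≤ M := (abs_nonneg _).trans h3
  clear h4
  have key : ∀ w, ReflTransGen (fun x y => PStep (op ω) x y ∧
      y ∈ {w | sw s z w ∧ nm (w - z) ≤ 2 * M}) u w → nm (w - z) ≤ 2 * M ∧
      ReflTransGen (fun x y => PStep (op ω') x y ∧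
        y ∈ {w | sw s z w ∧ nm (w - z) ≤ 2 * M}) u w := by
    intro w hw
    induction hw with
    | refl => exact ⟨h5.2, ReflTransGen.refl⟩
    | @tail b c _ hbc ih =>
      obtain ⟨⟨g1, g2, g3⟩, g4⟩ := hbc
      refine ⟨g4.2, ih.2.tail ⟨⟨g1, g2, ?_⟩, g4⟩⟩
      have g5 := ih.1
      have g6 := g4.2
      rw [nm_le_iff] at g5 g6
      simp only [Prod.fst_sub, Prod.snd_sub] at g5 g6
      have g7 : ω (min b.1 c.1, min b.2 c.2) = true := g3
      show ω' _ = true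
      rw [← h _ (by rw [mem_Bq]; simp only; omega)]
      exact g7
  exact (key v h6).2

/-- The factor of a block. -/
noncomputable def fac (a : ℝ) (s : Bool) (z : ℤ × ℤ) (M : ℤ) (N : Cfg → ℕ) (ω : Cfg) : ℝ :=
  1 + (a ^ N ω - 1) * (TT s z M).indicator 1 ω

theorem fac_loc {a : ℝ} {N : Cfg → ℕ}
    (hN : ∀ ω ω' : Cfg, (∀ v ∈ Bq z (4 * M), ω v = ω' v) → N ω = N ω') :
    Loc (Bq z (4 * M)) (fac a s z M N) := by
  intro ω ω' h
  unfold fac
  rw [hN ω ω' h]
  have : ω ∈ TT s z M ↔ ω' ∈ TT s z M :=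
    ⟨tt_loc h, tt_loc fun v hv => (h v hv).symm⟩
  by_cases h1 : ω ∈ TT s z M
  · rw [Set.indicator_of_mem h1, Set.indicator_of_mem (this.1 h1)]
    rfl
  · rw [Set.indicator_of_notMem h1, Set.indicator_of_notMem fun h2 => h1 (this.2 h2)]

theorem one_le_fac {a : ℝ} (ha : 1 ≤ a) {N : Cfg → ℕ} (ω : Cfg) : 1 ≤ fac a s z M N ω := by
  unfold fac
  have h1 : 1 ≤ a ^ N ω := one_le_pow₀ ha
  have h2 := FKA.ind_nonneg (TT s z M) ω
  nlinarith

theorem fac_pow {a : ℝ} {N : Cfg → ℕ} (k : ℕ) (ω : Cfg) :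
    fac a s z M N ω ^ k = fac (a ^ k) s z M N ω := by
  unfold fac
  by_cases h1 : ω ∈ TT s z M
  · rw [Set.indicator_of_mem h1]
    simp only [Pi.one_apply, mul_one, add_sub_cancel]
    rw [← pow_mul, ← pow_mul, mul_comm]
  · rw [Set.indicator_of_notMem h1]
    simp

/-- The pieces of a block. -/
theorem blk_card {a : ℝ} (ha : 1 ≤ a) {N : Cfg → ℕ}
    (hmaj : MajA (zone z M) (1 * (M : ℝ)) ω (N ω))
    (hD : ∀ v ∈ D, v ∈ Bq z (2 * M) → sd s z v) (𝓐 : Finset (Finset Ed)) (h𝓐 : 𝓐 ⊆ pcs ω D)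
    (h1 : ∀ A ∈ 𝓐, ∃ x : ℤ, z.1 - M ≤ x ∧ x < z.1 + M ∧ Sum.inr (x, z.2 - 1) ∈ A)
    (h2 : ∀ A ∈ 𝓐, ∃ e ∈ A, 8 * M ≤ nm (ls e - z)) :
    a ^ 𝓐.card ≤ fac a s z M N ω := by
  rcases 𝓐.eq_empty_or_nonempty with rfl | hne
  · rw [Finset.card_empty, pow_zero]
    exact one_le_fac ha ω
  have hls : ∀ x : ℤ, z.1 - M ≤ x → x < z.1 + M → (ls (Sum.inr (x, z.2 - 1))).2 = z.2 ∧
      |(ls (Sum.inr (x, z.2 - 1))).1 - z.1| ≤ M := by
    intro x hx1 hx2
    simp only [ls]
    split_ifs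
    · refine ⟨by simp, ?_⟩
      rw [abs_le]
      simp only
      omega
    · refine ⟨by simp, ?_⟩
      rw [abs_le]
      simp only
      omega
  have hmem : ω ∈ TT s z M := by
    obtain ⟨A, hA⟩ := hne
    obtain ⟨x, hx1, hx2, hx3⟩ := h1 A hA
    obtain ⟨e, he, he2⟩ := h2 A hA
    exact piece_tt (h𝓐 hA) hx3 he (hls x hx1 hx2).1 (hls x hx1 hx2).2 (by
      have := (abs_nonneg _).trans (hls x hx1 hx2).2
      omega) hD
  have hN : 𝓐.card ≤ N ω := by
    refine hmaj 𝓐 (fun γ hγ => H167.isSeg (h𝓐 hγ)) (fun γ hγ γ' hγ' hne => ?_) fun γ hγ => ?_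
    · rw [Finset.disjoint_left]
      intro e he he'
      exact hne (BR.eq_of_mem_pcs (h𝓐 hγ) (h𝓐 hγ') he he')
    · obtain ⟨x, hx1, hx2, hx3⟩ := h1 γ hγ
      obtain ⟨e, he, he2⟩ := h2 γ hγ
      have h3 : hdv (Sum.inr (x, z.2 - 1)) ∈ zone z M := by
        rw [mem_zone]
        simp only [hdv]
        split_ifs <;> simp only <;> omega
      refine ⟨⟨_, hx3, h3⟩, _, hx3, e, he, ?_⟩
      rw [one_mul]
      have h4 : M ≤ nm (hdv (Sum.inr (x, z.2 - 1)) - hdv e) := by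
        rw [mem_zone] at h3
        have h5 := (BR.corner_hd e)
        rw [le_nm_iff] at he2 ⊢
        simp only [Prod.fst_sub, Prod.snd_sub] at he2 ⊢
        omega
      exact_mod_cast h4
  unfold fac
  rw [Set.indicator_of_mem hmem]
  simp only [Pi.one_apply, mul_one, add_sub_cancel]
  exact pow_le_pow_right₀ ha hN

/-! ### Counting -/

/-- The height of the free side. -/
def hl (s : Bool) (M : ℤ) : ℤ := if s then 0 else 8 * M

/-- The centres of the blocks. -/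
def zz (s : Bool) (M : ℤ) (i : ℕ) : ℤ × ℤ := (2 * M * i, hl s M)

theorem mem_St {n H : ℤ} {v : ℤ × ℤ} : v ∈ St n H ↔ 0 ≤ v.1 ∧ v.1 < n ∧ 0 ≤ v.2 ∧ v.2 < H := by
  simp only [St, Finset.mem_product, Finset.mem_Ico]
  tauto

theorem ls_inr2 (x y : ℤ) : (ls (Sum.inr (x, y))).2 = y + 1 := by
  simp only [ls]
  split_ifs <;> rfl

theorem nT_le {a : ℝ} (ha : 1 ≤ a) (hM : 1 ≤ M) (m : ℕ) (ω : Cfg) (N : ℕ → Cfg → ℕ)
    (hmaj : ∀ i, MajA (zone (zz s M i) M) (1 * (M : ℝ)) ω (N i ω)) :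
    a ^ nT (2 * M * m) (8 * M) ω ≤
      a ^ (6 * M).toNat * ∏ i ∈ Finset.Ico 2 (m - 1), fac a s (zz s M i) M (N i) ω := by
  classical
  set n : ℤ := 2 * M * m with hn
  have hsd : ∀ (i : ℕ), ∀ v ∈ St n (8 * M), v ∈ Bq (zz s M i) (2 * M) → sd s (zz s M i) v := by
    intro i v hv _
    rw [mem_St] at hv
    unfold sd zz hl
    cases s
    · simp only [Bool.false_eq_true, if_false, false_implies, true_and, forall_const]
      omega
    · simp only [if_true, forall_const, Bool.true_eq_false, false_implies, and_true]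
      omega
  unfold nT
  set 𝓐 := (pcs ω (St n (8 * M))).filter fun A =>
    (∃ x : ℤ, 0 ≤ x ∧ x < n ∧ Sum.inr (x, -1) ∈ A) ∧
      ∃ x : ℤ, 0 ≤ x ∧ x < n ∧ Sum.inr (x, 8 * M - 1) ∈ A with h𝓐
  have hA0 : ∀ A ∈ 𝓐, A ∈ pcs ω (St n (8 * M)) := fun A hA => (Finset.mem_filter.1 hA).1
  have hx : ∀ A ∈ 𝓐, ∃ x : ℤ, 0 ≤ x ∧ x < n ∧ Sum.inr (x, hl s M - 1) ∈ A := by
    intro A hA
    obtain ⟨-, ⟨x, h1⟩, y, h2⟩ := Finset.mem_filter.1 hA
    unfold hl
    cases s
    · exact ⟨y, h2⟩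
    · exact ⟨x, h1⟩
  have hfar : ∀ A ∈ 𝓐, ∀ i : ℕ, ∃ e ∈ A, 8 * M ≤ nm (ls e - zz s M i) := by
    intro A hA i
    obtain ⟨-, ⟨x, h1⟩, y, h2⟩ := Finset.mem_filter.1 hA
    cases s
    · refine ⟨_, h1.2.2, ?_⟩
      rw [le_nm_iff]
      simp only [Prod.fst_sub, Prod.snd_sub, ls_inr2, zz, hl, Bool.false_eq_true, if_false]
      omega
    · refine ⟨_, h2.2.2, ?_⟩
      rw [le_nm_iff]
      simp only [Prod.fst_sub, Prod.snd_sub, ls_inr2, zz, hl, if_true]
      omega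
  choose! x hx0 hx1 hx2 using hx
  set E := 𝓐.filter fun A => x A < 3 * M ∨ n - 3 * M ≤ x A with hE
  set B : ℕ → Finset (Finset Ed) := fun i => 𝓐.filter fun A =>
    2 * M * i - M ≤ x A ∧ x A < 2 * M * i + M with hB
  have hcov : 𝓐 ⊆ E ∪ (Finset.Ico 2 (m - 1)).biUnion B := by
    intro A hA
    by_cases h1 : x A < 3 * M ∨ n - 3 * M ≤ x A
    · exact Finset.mem_union_left _ (Finset.mem_filter.2 ⟨hA, h1⟩)
    · push Not at h1
      obtain ⟨h2, h3⟩ := h1
      refine Finset.mem_union_right _ (Finset.mem_biUnion.2 ?_)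
      set q : ℤ := (x A + M) / (2 * M) with hq
      have h2M : 0 < 2 * M := by omega
      have q1 : 2 * M * q ≤ x A + M := Int.mul_ediv_self_le h2M.ne'
      have q2 : x A + M < 2 * M * q + 2 * M := by
        have := Int.lt_mul_ediv_self_add (x := x A + M) h2M
        exact this
      have q3 : 2 ≤ q := by
        by_contra hc
        push Not at hc
        have : q ≤ 1 := by omega
        nlinarith
      have q4 : q < (m : ℤ) - 1 := by
        by_contra hc
        push Not at hc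
        have : 2 * M * ((m : ℤ) - 1) ≤ 2 * M * q := mul_le_mul_of_nonneg_left hc h2M.le
        have e : 2 * M * ((m : ℤ) - 1) = n - 2 * M := by rw [hn]; ring
        omega
      refine ⟨q.toNat, Finset.mem_Ico.2 (by omega), Finset.mem_filter.2 ⟨hA, ?_⟩⟩
      have e : ((q.toNat : ℕ) : ℤ) = q := by omega
      rw [e]
      omega
  have hEc : E.card ≤ (6 * M).toNat := by
    have h1 : E.card ≤ (Finset.Ico 0 (3 * M) ∪ Finset.Ico (n - 3 * M) n).card := by
      refine Finset.card_le_card_of_injOn x (fun A hA => ?_) fun A hA A' hA' he => ?_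
      · obtain ⟨h2, h3⟩ := Finset.mem_filter.1 (Finset.mem_coe.1 hA)
        have := hx0 A h2
        have := hx1 A h2
        rw [Finset.mem_coe, Finset.mem_union, Finset.mem_Ico, Finset.mem_Ico]
        omega
      · have h2 := (Finset.mem_filter.1 (Finset.mem_coe.1 hA)).1
        have h3 := (Finset.mem_filter.1 (Finset.mem_coe.1 hA')).1
        refine BR.eq_of_mem_pcs (hA0 A h2) (hA0 A' h3) (hx2 A h2) ?_
        rw [he]
        exact hx2 A' h3
    refine h1.trans ((Finset.card_union_le _ _).trans ?_)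
    rw [Int.card_Ico, Int.card_Ico]
    omega
  have hcard : 𝓐.card ≤ (6 * M).toNat + ∑ i ∈ Finset.Ico 2 (m - 1), (B i).card :=
    (Finset.card_le_card hcov).trans ((Finset.card_union_le _ _).trans
      (add_le_add hEc Finset.card_biUnion_le))
  refine (pow_le_pow_right₀ ha hcard).trans ?_
  rw [pow_add, ← Finset.prod_pow_eq_pow_sum]
  refine mul_le_mul_of_nonneg_left ?_ (pow_nonneg (by linarith) _)
  refine Finset.prod_le_prod (fun i _ => pow_nonneg (by linarith) _) fun i _ => ?_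
  refine blk_card (D := St n (8 * M)) ha (hmaj i) (hsd i) (B i)
    (fun A hA => hA0 A (Finset.mem_filter.1 hA).1) (fun A hA => ?_)
    fun A hA => hfar A (Finset.mem_filter.1 hA).1 i
  obtain ⟨h1, h2, h3⟩ := Finset.mem_filter.1 hA
  exact ⟨x A, h2, h3, hx2 A h1⟩

/-! ### The theorem -/

theorem good_et (n H : ℤ) (a b : Bool) : Good (et n H a b) := by
  have e : et n H a b = cf ((Finset.Ico 0 n) ×ˢ {-1, H}) eta0
      (((Finset.Ico 0 n) ×ˢ {-1, H}).filter fun v => et n H a b v = true) := by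
    funext v
    by_cases hv : v ∈ (Finset.Ico 0 n) ×ˢ ({-1, H} : Finset ℤ)
    · by_cases h1 : et n H a b v = true
      · rw [h1]
        simp only [cf, hv, if_true, Finset.mem_filter, h1, and_self, decide_true]
      · have h2 : et n H a b v = false := by simpa using h1
        rw [h2]
        simp only [cf, hv, if_true, Finset.mem_filter, h2]
        simp
    · rw [FKA.cf_out hv]
      simp only [Finset.mem_product, Finset.mem_Ico, Finset.mem_insert, Finset.mem_singleton] at hv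
      unfold et eta0
      split_ifs with h1 h2 h3
      · exact absurd ⟨h1, Or.inl h2⟩ hv
      · exact absurd ⟨h1, Or.inr h3⟩ hv
      · rfl
      · rfl
  rw [e]
  exact FK.f_good.1 _ _ _ FK.f_good.2.1

theorem flat_St (hM : 1 ≤ M) {m i : ℕ} (hi : i ∈ Finset.Ico 2 (m - 1)) :
    Flat s (St (2 * M * m) (8 * M)) (et (2 * M * m) (8 * M) (!s) s) (zz s M i) (4 * M) := by
  intro v hv
  rw [mem_Bq] at hv
  rw [Finset.mem_Ico] at hi
  have h1 : 0 ≤ v.1 := by
    have : (2 : ℤ) ≤ i := by exact_mod_cast hi.1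
    have := hv.1
    simp only [zz] at this
    nlinarith
  have h2 : v.1 < 2 * M * m := by
    have h3 : (i : ℤ) + 2 ≤ m := by omega
    have h4 := hv.2.1
    simp only [zz] at h4
    nlinarith
  unfold sd
  rw [mem_St]
  unfold et
  simp only [zz, hl] at *
  cases s
  · simp only [Bool.false_eq_true, if_false, false_implies, true_and, forall_const] at *
    refine ⟨fun h => by omega, fun h => ⟨by omega, ?_⟩⟩
    rw [if_pos ⟨h1, h2⟩, if_neg (by omega)]
    split_ifs <;> rfl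
  · simp only [if_true, forall_const, Bool.true_eq_false, false_implies, and_true] at *
    refine ⟨fun h => by omega, fun h => ⟨by omega, ?_⟩⟩
    rw [if_pos ⟨h1, h2⟩]
    split_ifs with h3 h4
    · rfl
    · omega
    · rfl

theorem one_side (hQ : 1 ≤ Q) (hR : RSW Q) (a : ℝ) (ha : 1 ≤ a) : ∃ (K : ℝ) (M₁ : ℤ), 0 < K ∧
    1 ≤ M₁ ∧ ∀ M : ℤ, M₁ ≤ M → ∀ (s : Bool) (m : ℕ),
      Ex Q (St (2 * M * m) (8 * M)) (et (2 * M * m) (8 * M) (!s) s)
        (fun ω => a ^ nT (2 * M * m) (8 * M) ω) ≤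
        a ^ (6 * M).toNat * (1 + K * Real.sqrt (touch Q M)) ^ m := by
  classical
  have hQ0 : 0 < Q := by linarith
  have ha4 : 1 ≤ a ^ 4 := one_le_pow₀ ha
  obtain ⟨K, M₁, hK, hM₁, h⟩ := one_block hQ hR (a ^ 4) ha4
  refine ⟨K, M₁, hK, hM₁, fun M hM s m => ?_⟩
  have hM1 : 1 ≤ M := hM₁.trans hM
  have hev : ∀ i : ℕ, Even ((zz s M i).1 + (zz s M i).2) := by
    intro i
    simp only [zz, hl]
    cases s
    · exact ⟨M * i + 4 * M, by simp; ring⟩
    · exact ⟨M * i, by simp; ring⟩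
  choose N hN1 hN2 hN3 using fun i : ℕ => h M hM (zz s M i) (hev i)
  set D := St (2 * M * m) (8 * M) with hD
  set η := et (2 * M * m) (8 * M) (!s) s with hη
  have hgood : Good η := good_et _ _ _ _
  set c : ℝ := 1 + K * Real.sqrt (touch Q M) with hc
  have hc1 : 1 ≤ c := by
    have := mul_nonneg hK.le (Real.sqrt_nonneg (touch Q M))
    rw [hc]
    linarith
  have h1 : Ex Q D η (fun ω => a ^ nT (2 * M * m) (8 * M) ω) ≤
      Ex Q D η (fun ω => a ^ (6 * M).toNat *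
        (1 * ∏ i ∈ Finset.Ico 2 (m - 1), fac a s (zz s M i) M (N i) ω)) := by
    refine FKA.Ex_mono hQ0 fun S _ => ?_
    rw [one_mul]
    exact nT_le ha hM1 m _ N fun i => hN2 i _
  refine h1.trans ?_
  rw [FKA.Ex_mul_left]
  refine mul_le_mul_of_nonneg_left ?_ (pow_nonneg (by linarith) _)
  have h2 := ex_prod_col (Q := Q) (D := D) (η := η) (κ := ZMod 4) hQ0 (Finset.Ico 2 (m - 1))
    (fun i => (i : ZMod 4)) (fun i => Bq (zz s M i) (4 * M)) (fun i => fac a s (zz s M i) M (N i))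
    hc1 (fun i _ ω => zero_le_one.trans (one_le_fac ha ω)) (fun i _ => fac_loc (hN1 i))
    (fun i hi j hj hij hcol => ?_) (fun i hi G hG0 hG => ?_) (fun _ => 1)
    (fun _ => zero_le_one) (fun i _ ω ω' _ => rfl)
  · rw [FKA.Ex_const hQ0, mul_one] at h2
    refine h2.trans (pow_le_pow_right₀ hc1 ?_)
    rw [Nat.card_Ico]
    omega
  · -- disjointness
    have h3 : ((i : ℤ) : ZMod 4) = ((j : ℤ) : ZMod 4) := by
      push_cast
      exact hcol
    rw [ZMod.intCast_eq_intCast_iff] at h3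
    have h4 : ((i : ℤ) - j) % 4 = 0 := by
      have := h3.symm.dvd
      push_cast at this
      omega
    have h5 : (i : ℤ) ≠ j := by exact_mod_cast hij
    rw [Finset.disjoint_left]
    intro v hv hv'
    rw [mem_Bq] at hv hv'
    simp only [zz] at hv hv'
    rcases lt_or_gt_of_ne h5 with h6 | h6
    · have h7 : (i : ℤ) + 4 ≤ j := by omega
      nlinarith
    · have h7 : (j : ℤ) + 4 ≤ i := by omega
      nlinarith
  · -- one block
    rw [ZMod.card]
    have h3 := hN3 i s D η hgood (flat_St hM1 hi) G hG0 hG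
    refine le_trans (le_of_eq ?_) h3
    refine FKA.Ex_congr fun S _ => ?_
    rw [fac_pow]
    rfl

/-- **(3) Moments.** -/
theorem s_mom (hQ : 1 ≤ Q) (hR : RSW Q) : H452.S_MOM Q := by
  intro a ha
  obtain ⟨K, M₁, hK, hM₁, h⟩ := one_side hQ hR a ha
  exact ⟨K, M₁, hK, hM₁, fun M hM => ⟨a ^ (6 * M).toNat, pow_pos (by linarith) _, fun m =>
    ⟨h M hM true m, h M hM false m⟩⟩⟩

end Vale.Agent.P167.H437Q
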