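import Vale.Agent.P167.H437Q.Mom
import Vale.Agent.P167.H452.SDefs
import Vale.Agent.P167.QM.ArmM
import Vale.Agent.P167.H167.Crs
import Vale.Agent.P167.BR.Join

/-!
# P167, general `q`, block Q-SRSW: one block of a flat free side

`s = true`: the domain is above the line of height `z.2`; `s = false`: below.
-/

namespace Vale.Agent.P167.H437Q

open Finset Vale.Agent.P167.FK Relation
open Vale.Agent.P145.FB (PStep PConn)
open Vale.Agent.P167.FKA (Loc Ind nm_le_iff le_nm_iff)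
open Vale.Agent.P167.H166 (bxx mem_bxx)
open Vale.Agent.P167.QM (ow HB)
open Vale.Agent.P167.BR (pcs Run Stp)
open Vale.Agent.P167.H562.QM (OneP OneC QC Nr MajA)

variable {Q : ℝ} {D : Finset (ℤ × ℤ)} {η ω : Cfg} {s : Bool} {z : ℤ × ℤ} {M R : ℤ}

/-- The squares on the side `s` of the line. -/
def sd (s : Bool) (z v : ℤ × ℤ) : Prop := (s = true → z.2 ≤ v.2) ∧ (s = false → v.2 < z.2)

/-- The sites on the side `s` of the line. -/
def sw (s : Bool) (z w : ℤ × ℤ) : Prop := (s = true → z.2 ≤ w.2) ∧ (s = false → w.2 ≤ z.2)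

instance (s : Bool) (z v : ℤ × ℤ) : Decidable (sd s z v) := by unfold sd; infer_instance

/-- The half box. -/
noncomputable def HX (s : Bool) (z : ℤ × ℤ) (R : ℤ) : Finset (ℤ × ℤ) := (Bq z R).filter (sd s z)

/-- An open path from the window to distance `2 M`. -/
def TT (s : Bool) (z : ℤ × ℤ) (M : ℤ) : Set Cfg := {ω | ∃ u v : ℤ × ℤ, Even (u.1 + u.2) ∧
  u.2 = z.2 ∧ |u.1 - z.1| ≤ M ∧ 2 * M ≤ nm (v - z) ∧
  PConn (op ω) {w | sw s z w ∧ nm (w - z) ≤ 2 * M} u v}

theorem mem_Bq {z v : ℤ × ℤ} {R : ℤ} : v ∈ Bq z R ↔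
    z.1 - R ≤ v.1 ∧ v.1 < z.1 + R ∧ z.2 - R ≤ v.2 ∧ v.2 < z.2 + R := by
  simp only [Bq, Finset.mem_product, Finset.mem_Ico]
  tauto

theorem mem_HX {z v : ℤ × ℤ} {R : ℤ} : v ∈ HX s z R ↔ v ∈ Bq z R ∧ sd s z v := by
  simp [HX]

/-- The domain is flat near the site `z`, the squares on the other side of the line are closed. -/
def Flat (s : Bool) (D : Finset (ℤ × ℤ)) (η : Cfg) (z : ℤ × ℤ) (R : ℤ) : Prop :=
  ∀ v ∈ Bq z R, (sd s z v → v ∈ D) ∧ (¬ sd s z v → v ∉ D ∧ η v = false)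

/-! ### Strands -/

/-- The sites on the left of a run are joined by an open path in the domain. -/
theorem ls_run {e e' : Ed} {k : ℕ} (h : Run ω D e k e') :
    ReflTransGen (Stp ω D) (ls e) (ls e') := by
  induction k generalizing e' with
  | zero => rw [show e = e' from h.1]
  | succ k ih =>
    have h1 : Run ω D e k ((nx ω)^[k] e) := ⟨rfl, fun j hj => h.2 j (by omega)⟩
    have h2 := ih h1
    have h3 := BR.ls_stp (ω := ω) (h.2 k (by omega))
    rw [← Function.iterate_succ_apply' (nx ω), h.1] at h3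
    rcases h3 with h3 | h3
    · rw [h3]; exact h2
    · exact h2.tail h3

theorem stp_even {s t : ℤ × ℤ} (h : ReflTransGen (Stp ω D) s t) (hs : Even (s.1 + s.2)) :
    ReflTransGen (PStep (op ω ∩ ↑D)) s t ∧ Even (t.1 + t.2) := by
  induction h with
  | refl => exact ⟨ReflTransGen.refl, hs⟩
  | @tail b c _ hbc ih =>
    rcases hbc with ⟨_, h2⟩ | ⟨h1, _⟩
    · refine ⟨ih.1.tail h2, ?_⟩
      have h3 := ih.2
      obtain ⟨h4, h5, -⟩ := h2
      rw [Int.even_iff] at *
      omega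
    · exact absurd ih.2 h1

theorem ls_piece {A : Finset Ed} (hA : A ∈ pcs ω D) {e e' : Ed} (he : e ∈ A) (he' : e' ∈ A) :
    ReflTransGen (PStep (op ω ∩ ↑D)) (ls e) (ls e') := by
  obtain ⟨k, h | h⟩ := BR.run_of_mem hA he he'
  · exact (stp_even (ls_run h) (BR.even_ls e)).1
  · exact QM.rtg_symm' (stp_even (ls_run h) (BR.even_ls e')).1

/-- A piece which starts at the window of a flat side and goes far has an open path on its left. -/
theorem piece_tt {A : Finset Ed} (hA : A ∈ pcs ω D) {e e' : Ed} (he : e ∈ A) (he' : e' ∈ A)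
    (h1 : (ls e).2 = z.2) (h2 : |(ls e).1 - z.1| ≤ M) (h3 : 2 * M ≤ nm (ls e' - z))
    (hD : ∀ v ∈ D, v ∈ Bq z (2 * M) → sd s z v) : ω ∈ TT s z M := by
  have h4 := ls_piece hA he he'
  have h5 : nm (ls e - z) ≤ 2 * M := by
    rw [nm_le_iff]
    rw [abs_le] at h2
    simp only [Prod.fst_sub, Prod.snd_sub]
    omega
  obtain ⟨v', h6, h7⟩ := FKA.exit h4 h5 h3
  refine ⟨ls e, v', BR.even_ls e, h1, h2, h6.ge, ?_⟩
  obtain ⟨h8, h9⟩ := h7
  have h0 : sw s z (ls e) := ⟨fun _ => h1.ge, fun _ => h1.le⟩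
  clear h6
  have key : ∀ w, ReflTransGen (fun x y => PStep (op ω ∩ ↑D) x y ∧ y ∈ {w | nm (w - z) ≤ 2 * M})
      (ls e) w → nm (w - z) ≤ 2 * M ∧
      PConn (op ω) {w | sw s z w ∧ nm (w - z) ≤ 2 * M} (ls e) w := by
    intro w hw
    induction hw with
    | refl => exact ⟨h8, PConn.refl ⟨h0, h8⟩⟩
    | @tail b c _ hbc ih =>
      obtain ⟨⟨g1, g2, g3⟩, g4⟩ := hbc
      have g4' : nm (c - z) ≤ 2 * M := g4
      refine ⟨g4', ih.2.tail ⟨g1, g2, g3.1⟩ ⟨?_, g4'⟩⟩
      have g5 := ih.1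
      rw [nm_le_iff] at g4' g5
      simp only [Prod.fst_sub, Prod.snd_sub] at g4' g5
      have g6 := hD _ g3.2 (by
        rw [mem_Bq]
        simp only
        omega)
      constructor
      · intro hs
        have := g6.1 hs
        simp only at this
        omega
      · intro hs
        have := g6.2 hs
        simp only at this
        omega
  exact (key v' h9).2

/-! ### The frozen squares near a flat side -/

theorem oneC_flat (hF : Flat s D η z R) {y : ℤ × ℤ} {a : ℤ} (h : ∀ v ∈ bxx y a, v ∈ Bq z R) :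
    OneC y a D η := by
  constructor
  · intro v hv hvD hv1
    have h1 := hF v (h v hv)
    by_cases h2 : sd s z v
    · exact absurd (h1.1 h2) hvD
    · rw [(h1.2 h2).2] at hv1
      exact absurd hv1 (by simp)
  · have key : ∀ v ∈ bxx (FKA.sh y) a, v ∉ D.image (fun v => (v.1 + 1, v.2)) →
        ¬ sd s z (FKA.shi v) := by
      intro v hv hvD h2
      rw [FKA.mem_bxx_sh] at hv
      exact hvD (H562.QM.mem_image_sh.2 ((hF _ (h _ hv)).1 h2))
    have key2 : ∀ v ∈ bxx (FKA.sh y) a, ¬ sd s z (FKA.shi v) →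
        v ∈ ({w | w ∈ bxx (FKA.sh y) a ∧ w ∉ D.image (fun v => (v.1 + 1, v.2)) ∧
          du η w = true} : Set (ℤ × ℤ)) := by
      intro v hv h2
      have hv' := hv
      rw [FKA.mem_bxx_sh] at hv'
      obtain ⟨h3, h4⟩ := (hF _ (h _ hv')).2 h2
      refine ⟨hv, fun h5 => h3 (H562.QM.mem_image_sh.1 h5), ?_⟩
      show (!η (FKA.shi v)) = true
      rw [h4]
      rfl
    intro v hv hvD hv1 w hw hwD hw1
    have hv2 := key v hv hvD
    have hw2 := key w hw hwD
    rw [H945.mem_bxx'] at hv hw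
    have e1 : ∀ v : ℤ × ℤ, (FKA.shi v).2 = v.2 := fun v => rfl
    cases s
    · simp only [sd, e1, Bool.false_eq_true, false_implies, true_and, forall_const, not_lt]
        at hv2 hw2
      refine QC.rect (x0 := (FKA.sh y).1 - a) (x1 := (FKA.sh y).1 + a + 1)
        (y0 := max ((FKA.sh y).2 - a) z.2) (y1 := (FKA.sh y).2 + a + 1)
        (fun u h1 h2 h3 h4 => key2 u ?_ ?_) ?_ ?_
      · rw [H945.mem_bxx']; omega
      · simp only [sd, e1, Bool.false_eq_true, false_implies, true_and, forall_const, not_lt]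
        omega
      · omega
      · omega
    · simp only [sd, e1, forall_const, Bool.true_eq_false, false_implies, and_true, not_le]
        at hv2 hw2
      refine QC.rect (x0 := (FKA.sh y).1 - a) (x1 := (FKA.sh y).1 + a + 1)
        (y0 := (FKA.sh y).2 - a) (y1 := min ((FKA.sh y).2 + a + 1) z.2)
        (fun u h1 h2 h3 h4 => key2 u ?_ ?_) ?_ ?_
      · rw [H945.mem_bxx']; omega
      · simp only [sd, e1, forall_const, Bool.true_eq_false, false_implies, and_true, not_le]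
        omega
      · omega
      · omega

/-! ### The conditional probability of touching -/

theorem inc_TT : FKA.IncS (TT s z M) := by
  rintro ω ω' h ⟨u, v, h1, h2, h3, h4, h5⟩
  exact ⟨u, v, h1, h2, h3, h4, h5.mono (fun w hw => h w hw) (Set.Subset.refl _)⟩

theorem cond_tt (hQ : 1 ≤ Q) (hη : Good η) (hF : Flat s D η z R) {G : Cfg → ℝ}
    (hG0 : ∀ ω, 0 ≤ G ω) (hG : Ind (Bq z R) G) :
    Ex Q D η (fun ω => G ω * (TT s z M).indicator 1 ω) ≤
      Pr Q (HX s z R) (ow z R) (TT s z M) * Ex Q D η G := by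
  have hQ0 : 0 < Q := by linarith
  have hsub : HX s z R ⊆ D := fun v hv => (hF v (mem_HX.1 hv).1).1 (mem_HX.1 hv).2
  have hG' : Ind (HX s z R) G := FKA.Ind.mono (fun v hv => (mem_HX.1 hv).1) hG
  rw [FKA.markov H259.f_markov hQ0 hsub hη hG', ← FKA.Ex_mul_left]
  refine FKA.Ex_mono hQ0 fun S _ => ?_
  rw [mul_comm]
  refine mul_le_mul_of_nonneg_right ?_ (hG0 _)
  refine QM.Ex_up hQ (Finset.Subset.refl _) inc_TT.incF (FK.f_good.1 _ _ _ hη)
    (QM.arm_good_ow z R) fun v hv hvt => ⟨hv, ?_⟩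
  have h1 : v ∉ Bq z R := by
    intro hvB
    have h2 : ¬ sd s z v := fun h => hv (mem_HX.2 ⟨hvB, h⟩)
    obtain ⟨h3, h4⟩ := (hF v hvB).2 h2
    rw [FKA.cf_out h3, h4] at hvt
    exact absurd hvt (by simp)
  simp [ow, cf, h1, eta1]

/-- The symmetry. -/
def tu (s : Bool) (z v : ℤ × ℤ) : ℤ × ℤ :=
  if s then (v.1 + z.1, v.2 + z.2) else (v.1 + z.1, -1 - v.2 + z.2)

theorem sy_tu (hz : Even (z.1 + z.2)) : FKA.IsSy (tu s z) := by
  cases s
  · have h := (FKA.sy_tr z hz).comp FKA.sy_ry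
    have e : (tu false z) = (fun v => (v.1 + z.1, v.2 + z.2)) ∘
        (fun v : ℤ × ℤ => (v.1, -1 - v.2)) := by
      funext v
      simp [tu]
    rw [e]
    exact h
  · have e : (tu true z) = (fun v => (v.1 + z.1, v.2 + z.2)) := by
      funext v
      simp [tu]
    rw [e]
    exact FKA.sy_tr z hz

theorem tt_tch (hz : Even (z.1 + z.2)) (h : ω ∈ TT s z M) : ω ∘ tu s z ∈ H452.Tch M := by
  obtain ⟨u, v, h1, h2, h3, h4, h5, h6⟩ := h
  set f : ℤ × ℤ → ℤ × ℤ := fun w => (w.1 - z.1, if s then w.2 - z.2 else z.2 - w.2) with hf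
  have hnm : ∀ w, nm (f w) = nm (w - z) := by
    intro w
    simp only [nm, hf, Prod.fst_sub, Prod.snd_sub]
    cases s
    · simp only [Bool.false_eq_true, if_false]
      rw [abs_sub_comm z.2 w.2]
    · simp
  have hreg : ∀ w, sw s z w ∧ nm (w - z) ≤ 2 * M → 0 ≤ (f w).2 ∧ nm (f w) ≤ 2 * M := by
    rintro w ⟨⟨h1, h2⟩, h3⟩
    rw [hnm]
    refine ⟨?_, h3⟩
    simp only [hf]
    cases s
    · have := h2 rfl
      simp only [Bool.false_eq_true, if_false]
      omega
    · have := h1 rfl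
      simp only [if_true]
      omega
  have hstep : ∀ a b, PStep (op ω) a b → PStep (op (ω ∘ tu s z)) (f a) (f b) := by
    rintro a b ⟨g1, g2, g3⟩
    refine ⟨?_, ?_, ?_⟩
    · simp only [hf]; omega
    · simp only [hf]; cases s <;> simp <;> omega
    · show (ω ∘ tu s z) _ = true
      have g4 : ω (min a.1 b.1, min a.2 b.2) = true := g3
      have e : tu s z (min (f a).1 (f b).1, min (f a).2 (f b).2) =
          (min a.1 b.1, min a.2 b.2) := by
        simp only [hf, tu]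
        cases s
        · simp only [Bool.false_eq_true, if_false, Prod.mk.injEq]
          omega
        · simp only [if_true, Prod.mk.injEq]
          omega
      rw [Function.comp_apply, e]
      exact g4
  refine ⟨f u, f v, ?_, ?_, ?_, ?_, hreg u h5, ?_⟩
  · simp only [hf]
    rw [Int.even_iff] at *
    cases s
    · simp only [Bool.false_eq_true, if_false]; omega
    · simp only [if_true]; omega
  · simp only [hf, h2]; cases s <;> simp
  · simpa [hf] using h3
  · rw [hnm]; exact h4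
  · clear h4
    induction h6 with
    | refl => exact ReflTransGen.refl
    | @tail b c _ hbc ih => exact ih.tail ⟨hstep _ _ hbc.1, hreg _ hbc.2⟩

theorem touch_bd (hQ : 1 ≤ Q) (hz : Even (z.1 + z.2)) :
    Pr Q (HX s z (4 * M)) (ow z (4 * M)) (TT s z M) ≤ H452.touch Q M := by
  have hQ0 : 0 < Q := by linarith
  have h1 := (sy_tu (s := s) hz).2 Q (HB 0 (4 * M)) (ow z (4 * M))
    ((H452.Tch M).indicator 1) hQ0 (QM.arm_good_ow _ _)
  have e1 : (ow z (4 * M)) ∘ (tu s z) = ow 0 (4 * M) := by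
    funext v
    have hB : tu s z v ∈ Bq z (4 * M) ↔ v ∈ Bq 0 (4 * M) := by
      rw [mem_Bq, mem_Bq]
      simp only [tu, Prod.fst_zero, Prod.snd_zero]
      cases s
      · simp only [Bool.false_eq_true, if_false]; omega
      · simp only [if_true]; omega
    by_cases hv : v ∈ Bq 0 (4 * M)
    · simp [ow, cf, hv, hB.2 hv, Function.comp_apply]
    · have hv' : tu s z v ∉ Bq z (4 * M) := fun h => hv (hB.1 h)
      simp [ow, cf, hv, hv', Function.comp_apply, eta1]
  have e2 : (HB 0 (4 * M)).image (tu s z) = HX s z (4 * M) := by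
    ext v
    rw [Finset.mem_image, mem_HX, mem_Bq]
    constructor
    · rintro ⟨w, hw, rfl⟩
      simp only [HB, Finset.mem_filter] at hw
      rw [mem_Bq] at hw
      simp only [Prod.fst_zero, Prod.snd_zero] at hw
      simp only [tu, sd]
      cases s
      · simp only [Bool.false_eq_true, if_false, false_implies, true_and, forall_const]
        omega
      · simp only [if_true, forall_const, Bool.true_eq_false, false_implies, and_true]
        omega
    · rintro ⟨h1, h2⟩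
      cases s
      · have h3 := h2.2 rfl
        refine ⟨(v.1 - z.1, -1 - v.2 + z.2), ?_, ?_⟩
        · simp only [HB, Finset.mem_filter]
          rw [mem_Bq]
          simp only [Prod.fst_zero, Prod.snd_zero]
          omega
        · simp only [tu, Bool.false_eq_true, if_false]
          refine Prod.ext ?_ ?_
          · simp
          · simp only; ring
      · have h3 := h2.1 rfl
        refine ⟨(v.1 - z.1, v.2 - z.2), ?_, ?_⟩
        · simp only [HB, Finset.mem_filter]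
          rw [mem_Bq]
          simp only [Prod.fst_zero, Prod.snd_zero]
          omega
        · simp only [tu, if_true]
          ext <;> simp
  rw [e1, e2] at h1
  unfold H452.touch
  unfold Pr at *
  rw [h1]
  refine FKA.Ex_mono hQ0 fun S _ => ?_
  by_cases h2 : cf (HX s z (4 * M)) (ow z (4 * M)) S ∈ TT s z M
  · rw [Set.indicator_of_mem h2, Set.indicator_of_mem (tt_tch hz h2)]
    rfl
  · rw [Set.indicator_of_notMem h2]
    exact FKA.ind_nonneg _ _

/-! ### One block -/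

/-- The squares at the window. -/
noncomputable def zone (z : ℤ × ℤ) (M : ℤ) : Finset (ℤ × ℤ) :=
  Finset.Ico (z.1 - M) (z.1 + M) ×ˢ Finset.Ico (z.2 - 1) (z.2 + 1)

theorem mem_zone {z v : ℤ × ℤ} : v ∈ zone z M ↔
    z.1 - M ≤ v.1 ∧ v.1 < z.1 + M ∧ z.2 - 1 ≤ v.2 ∧ v.2 < z.2 + 1 := by
  simp only [zone, Finset.mem_product, Finset.mem_Ico]
  tauto

theorem nr_zone (hM : 1 ≤ M) {v : ℤ × ℤ} (h : Nr (zone z M) (1 * (M : ℝ)) v) :
    v ∈ Bq z (4 * M) := by
  obtain ⟨u, hu, h1⟩ := h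
  rw [one_mul] at h1
  have h2 : nm (v - u) ≤ M := by exact_mod_cast h1
  rw [nm_le_iff] at h2
  rw [mem_zone] at hu
  rw [mem_Bq]
  simp only [Prod.fst_sub, Prod.snd_sub] at h2
  omega

theorem one_block (hQ : 1 ≤ Q) (hR : RSW Q) (a : ℝ) (ha : 1 ≤ a) : ∃ (K : ℝ) (M₁ : ℤ), 0 < K ∧
    1 ≤ M₁ ∧ ∀ M : ℤ, M₁ ≤ M → ∀ z : ℤ × ℤ, Even (z.1 + z.2) → ∃ N : Cfg → ℕ,
      (∀ ω ω' : Cfg, (∀ v ∈ Bq z (4 * M), ω v = ω' v) → N ω = N ω') ∧
      (∀ ω, MajA (zone z M) (1 * (M : ℝ)) ω (N ω)) ∧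
      ∀ (s : Bool) (D : Finset (ℤ × ℤ)) (η : Cfg), Good η → Flat s D η z (4 * M) →
        ∀ G : Cfg → ℝ, (∀ ω, 0 ≤ G ω) → Ind (Bq z (4 * M)) G →
        Ex Q D η (fun ω => G ω * (1 + (a ^ N ω - 1) * (TT s z M).indicator 1 ω)) ≤
          (1 + K * Real.sqrt (H452.touch Q M)) * Ex Q D η G := by
  have hQ0 : 0 < Q := by linarith
  obtain ⟨ε, C, ρ0, -, hC, hρ0, hmac⟩ := H562.QM.macro_B hQ hR 1 1 (2 * Real.log a) 0 one_pos
    zero_le_one
  refine ⟨Real.sqrt C, max 1 ⌈ρ0⌉, Real.sqrt_pos.2 hC, le_max_left _ _, fun M hM z hz => ?_⟩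
  have hM1 : 1 ≤ M := (le_max_left _ _).trans hM
  have hMρ : ρ0 ≤ (M : ℝ) := (Int.le_ceil ρ0).trans (by exact_mod_cast (le_max_right _ _).trans hM)
  obtain ⟨N, h1, h2, h3⟩ := hmac (M : ℝ) hMρ z (zone z M) (fun v hv => by
    rw [mem_zone] at hv
    rw [one_mul]
    have : nm (v - z) ≤ M := by
      rw [nm_le_iff]
      simp only [Prod.fst_sub, Prod.snd_sub]
      omega
    exact_mod_cast this) Fin.elim0
  refine ⟨N, fun ω ω' h => h1 ω ω' fun v hv _ => h v (nr_zone hM1 hv), h2,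
    fun s D η hη hF G hG0 hG => ?_⟩
  have ha0 : 0 < a := by linarith
  have h4 := fac_le (Q := Q) (D := D) (η := η) hQ0 (Y := fun ω => a ^ N ω) (TT s z M) hC.le
    (show 0 ≤ H452.touch Q M from FKA.Pr_nonneg hQ0 _) hG0 (by
      refine le_trans (le_of_eq ?_) (h3 D η hη (fun y b hb hyb => oneC_flat hF fun v hv =>
        nr_zone hM1 (hyb v hv)) G hG0 fun ω ω' h => hG ω ω' fun v hv => h v fun h5 =>
          hv (nr_zone hM1 h5.2))
      refine FKA.Ex_congr fun S _ => ?_
      congr 1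
      have e : (a ^ N (cf D η S)) ^ 2 = Real.exp (Real.log a) ^ (N (cf D η S) * 2) := by
        rw [Real.exp_log ha0, pow_mul]
      rw [e, ← Real.exp_nat_mul]
      congr 1
      push_cast
      ring)
    ((cond_tt hQ hη hF hG0 hG).trans (mul_le_mul_of_nonneg_right (touch_bd hQ hz)
      (FKA.Ex_nonneg hQ0 fun S _ => hG0 _)))
  rw [Real.sqrt_mul hC.le] at h4
  exact h4

end Vale.Agent.P167.H437Q
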